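import Vale.Agent.P280.N.A06
import Vale.Agent.P280.N.A14
import Vale.Agent.P280.H63X.A05
import Vale.Agent.P280.H63X.Fin

/-! P280: local parameters at a fixed point with a given coordinate of multiplicity one. -/

open DirectSum Vale.Agent.P280.T Vale.Agent.P280.H127 Vale.Agent.P280.N

namespace Vale.Agent.P280.H749

variable {r : ℕ} {R : Type} [CommRing R] [IsDomain R] [Algebra ℂ R]
  {𝒜 : ℕ × (Fin r → ℤ) → Submodule ℂ R} [GradedAlgebra 𝒜]

/-- A tangent vector at a fixed point is the value of a rational field. -/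
theorem locv (hX : IsTorusManifold 𝒜) (y : FP 𝒜) {lam : Fin r → ℤ} {t : R →ₗ[ℂ] ℂ}
    (ht : IsTangent y.q t) (hw : HasWeight 𝒜 y.ν lam t) :
    ∃ v : VF R, HV 𝒜 lam v ∧ ValV y.q v t := by
  obtain ⟨C, hC⟩ := H93.exists_shift_der hX y.nv y.fix ht hw
  obtain ⟨E, hE, hEv⟩ := hC C le_rfl
  obtain ⟨f, hf, hfy⟩ := exists_deg_one_ne hX.gen y.nv y.fix
  have hg : f ^ C ∈ 𝒜 (C, C • y.ν) := by
    have h1 := SetLike.pow_mem_graded C hf
    have e : C • ((1, y.ν) : ℕ × (Fin r → ℤ)) = (C, C • y.ν) := by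
      ext <;> simp
    rw [e] at h1
    exact h1
  have hgq : y.q (f ^ C) ≠ 0 := by
    rw [map_pow]
    exact pow_ne_zero _ hfy
  have hg0 : f ^ C ≠ 0 := ne_zero_of_q hgq
  have hK : iK (f ^ C) ≠ 0 := iK_ne_zero hg0
  have hval : ∀ h : R, iK (f ^ C) *
      ((((y.q (f ^ C)) • (iK (f ^ C))⁻¹) • toVF E : VF R) (iK h)) =
        iK ((y.q (f ^ C)) • E h) := by
    intro h
    rw [Derivation.smul_apply, toVF_iK, iK_smul, smul_eq_mul, smul_mul_assoc, mul_smul_comm,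
      mul_inv_cancel_left₀ hK]
  refine ⟨((y.q (f ^ C)) • (iK (f ^ C))⁻¹) • toVF E, ?_, ?_⟩
  · intro d m h hh
    refine ⟨d + C, C, m + C • y.ν - lam, C • y.ν, (y.q (f ^ C)) • E h,
      Submodule.smul_mem _ _ (hE d m h hh), f ^ C, hg, hg0, hval h, ?_, ?_⟩
    · push_cast
      ring
    · abel
  · intro h
    refine ⟨(y.q (f ^ C)) • E h, f ^ C, hgq, hval h, ?_⟩
    rw [map_smul, smul_eq_mul, hEv]

/-- Parameters which contain a given coordinate, whose weight has multiplicity one. -/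
theorem gens_crd (hX : IsTorusManifold 𝒜) (y : FP 𝒜) {χ : Fin r → ℤ} {dz : ℕ} {z : R}
    (hz : Crd y χ dz z)
    (hm : ∀ v v' : R →ₗ[ℂ] ℂ, IsTangent y.q v → HasWeight 𝒜 y.ν χ v → IsTangent y.q v' →
      HasWeight 𝒜 y.ν χ v' → ∃ c c' : ℂ, (c ≠ 0 ∨ c' ≠ 0) ∧ ∀ h, c * v h + c' * v' h = 0) :
    ∃ (n : ℕ) (u : Fin n → R) (wt : Fin n → Fin r → ℤ) (i0 : Fin n),
      Gens (coarse 𝒜 (rl (AddMonoidHom.id (Fin r → ℤ)) y.ν)) y.q u wt ∧ u i0 = z ∧
        wt i0 = χ ∧ (n : ℕ∞) = (mx y.q).height ∧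
        ∀ i, i ≠ i0 → wt i ≠ χ ∧ (wt i ≠ 0 → y.Pi (wt i)) := by
  classical
  have := noeth hX
  have hF := fix_of_isFixed y.fix
  obtain ⟨n, u, wt, G, hn⟩ := exists_params_T hX y.nv hF
  obtain ⟨v, hv1, hv2, hv3, -⟩ := G.exists_dual hF hn.le
  obtain ⟨c, hc⟩ := G.expand (x := z) (mem_mx.mpr hz.2.1)
  have hzc : z ∈ coarse 𝒜 (rl (AddMonoidHom.id (Fin r → ℤ)) y.ν) χ := by
    refine mem_coarse hz.1 ?_
    rw [rl_apply, AddMonoidHom.id_apply]
    abel
  have hPi := (A06.crd_pi hz)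
  obtain ⟨-, hqz, t, ht, htw, htz⟩ := hz
  have hval : ∀ η : R →ₗ[ℂ] ℂ, Tan y.q η → η z = ∑ i, c i * η (u i) := by
    intro η hη
    have h1 := hη.sq hc
    rw [map_sub, map_sum, sub_eq_zero] at h1
    rw [h1]
    exact Finset.sum_congr rfl fun i _ => by rw [map_smul, smul_eq_mul]
  have hcv : ∀ j, c j = v j z := by
    intro j
    rw [hval (v j) (hv1 j)]
    simp [hv2]
  obtain ⟨i0, -, hi0⟩ : ∃ i ∈ Finset.univ, c i * t (u i) ≠ 0 := by
    apply Finset.exists_ne_zero_of_sum_ne_zero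
    rw [← hval t ht]
    exact htz
  have hci0 : c i0 ≠ 0 := left_ne_zero_of_mul hi0
  have hwi0 : wt i0 = χ := by
    by_contra h
    exact hci0 (by rw [hcv]; exact hv3 i0 χ (Ne.symm h) z hzc)
  have hwv : ∀ j, HasWeight 𝒜 y.ν (wt j) (v j) := by
    intro j d m h hh hne
    by_contra h1
    refine hne (hv3 j (m - d • y.ν) ?_ h (mem_coarse hh rfl))
    intro h2
    apply h1
    rw [← h2]
    abel
  have huniq : ∀ j, j ≠ i0 → wt j ≠ χ := by
    intro j hj h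
    obtain ⟨a, b, hab, h1⟩ := hm (v i0) (v j) (hv1 i0)
      (hwi0 ▸ hwv i0) (hv1 j) (h ▸ hwv j)
    have h2 := h1 (u i0)
    have h3 := h1 (u j)
    rw [hv2, hv2, if_pos rfl, if_neg hj, mul_one, mul_zero, add_zero] at h2
    rw [hv2, hv2, if_pos rfl, if_neg (Ne.symm hj), mul_one, mul_zero, zero_add] at h3
    rcases hab with h4 | h4
    · exact h4 h2
    · exact h4 h3
  have hcj : ∀ j, j ≠ i0 → c j = 0 := by
    intro j hj
    rw [hcv]
    exact hv3 j χ (Ne.symm (huniq j hj)) z hzc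
  have hzu : z - c i0 • u i0 ∈ mx y.q ^ 2 := by
    rwa [Finset.sum_eq_single i0 (fun j _ hj => by rw [hcj j hj, zero_smul])
      (fun h => absurd (Finset.mem_univ _) h)] at hc
  refine ⟨n, Function.update u i0 z, wt, i0, ?_, Function.update_self .., hwi0, hn,
    fun i hi => ⟨huniq i hi, fun h => tangentWeight_of_wt hX y.fix G hn h⟩⟩
  refine Gens.of_cotangent hF ?_ ?_ ?_
  · intro i
    by_cases hi : i = i0
    · subst hi
      rw [Function.update_self, hwi0]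
      exact hzc
    · rw [Function.update_of_ne hi]
      exact G.hom i
  · intro i
    by_cases hi : i = i0
    · subst hi
      rw [Function.update_self]
      exact hqz
    · rw [Function.update_of_ne hi]
      exact G.zero i
  · intro x hx
    obtain ⟨d, hd⟩ := G.expand hx
    have e : x = (x - ∑ i, d i • u i) + ∑ i, d i • u i := by ring
    rw [e]
    refine Ideal.add_mem _ (Ideal.mem_sup_right hd) (Ideal.sum_mem _ fun i _ => ?_)
    rw [Algebra.smul_def]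
    refine Ideal.mul_mem_left _ _ ?_
    by_cases hi : i = i0
    · rw [hi]
      have e1 : u i0 = algebraMap ℂ R (c i0)⁻¹ * (z - (z - c i0 • u i0)) := by
        rw [sub_sub_cancel, ← Algebra.smul_def, smul_smul, inv_mul_cancel₀ hci0, one_smul]
      rw [e1]
      refine Ideal.mul_mem_left _ _ (Ideal.sub_mem _ (Ideal.mem_sup_left (Ideal.subset_span ?_))
        (Ideal.mem_sup_right hzu))
      exact ⟨i0, Function.update_self ..⟩
    · exact Ideal.mem_sup_left (Ideal.subset_span ⟨i, Function.update_of_ne hi ..⟩)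

theorem crd_ne_zero {y : FP 𝒜} {ψ : Fin r → ℤ} {d : ℕ} {z : R} (h : Crd y ψ d z) : z ≠ 0 := by
  rintro rfl
  obtain ⟨-, -, t, -, -, h⟩ := h
  exact h (map_zero t)

theorem rg_iff_regF {q : R →ₐ[ℂ] ℂ} {x : FractionRing R} : Rg q x ↔ H674.RegF q x := by
  constructor
  · rintro ⟨a, s, hs, e⟩
    exact ⟨s, hs, a, e⟩
  · rintro ⟨s, hs, a, e⟩
    exact ⟨a, s, hs, e⟩

/-- **Pole lemma for functions.** If `z ^ k x` is regular and no power of the pole is possible,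
`x` is regular. -/
theorem rg_of_pole (hX : IsTorusManifold 𝒜) (y : FP 𝒜) {χ : Fin r → ℤ} {dz : ℕ} {z : R}
    (hz : Crd y χ dz z)
    (hm : ∀ v v' : R →ₗ[ℂ] ℂ, IsTangent y.q v → HasWeight 𝒜 y.ν χ v → IsTangent y.q v' →
      HasWeight 𝒜 y.ν χ v' → ∃ c c' : ℂ, (c ≠ 0 ∨ c' ≠ 0) ∧ ∀ h, c * v h + c' * v' h = 0)
    {d : ℤ} {m : Fin r → ℤ} {x : FractionRing R} (hx : HK 𝒜 d m x) {k : ℕ}
    (hk : Rg y.q ((iK z) ^ k * x))
    (hno : ∀ (k : ℕ) (s : Fin r → ℤ), 1 ≤ k → s ∈ AddSubmonoid.closure {ψ | y.Pi ψ ∧ ψ ≠ χ} →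
      m - d • y.ν + k • χ ≠ s) : Rg y.q x := by
  have := noeth hX
  have hF := fix_of_isFixed y.fix
  obtain ⟨n, u, wt, i0, G, hu, hw, -, hwt⟩ := gens_crd hX y hz hm
  rw [rg_iff_regF] at hk ⊢
  refine H674.regF_of_pole hF G (A06.homK hx y.ν) (i0 := i0) (by rw [hu]; exact crd_ne_zero hz)
    ⟨k, by rw [hu, map_pow]; exact hk⟩ ?_
  intro k' mm hk' hmm h1
  refine hno k' (∑ l, mm l • wt l) hk' ?_ (by rw [← hw]; exact h1)
  refine AddSubmonoid.sum_mem _ fun i _ => ?_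
  by_cases hi : i = i0
  · rw [hi, hmm, zero_smul]
    exact AddSubmonoid.zero_mem _
  · by_cases h0 : wt i = 0
    · rw [h0, smul_zero]
      exact AddSubmonoid.zero_mem _
    · have h3 : wt i ∈ {ψ | y.Pi ψ ∧ ψ ≠ χ} := ⟨(hwt i hi).2 h0, (hwt i hi).1⟩
      exact AddSubmonoid.nsmul_mem _ (AddSubmonoid.subset_closure h3) _

/-- The closure of a set of weights which are nonnegative for `l`. -/
theorem closure_nonneg {l : (Fin r → ℤ) →+ ℤ} {S : Set (Fin r → ℤ)} (h : ∀ ψ ∈ S, 0 ≤ l ψ)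
    {s : Fin r → ℤ} (hs : s ∈ AddSubmonoid.closure S) : 0 ≤ l s := by
  induction hs using AddSubmonoid.closure_induction with
  | mem x hx => exact h x hx
  | zero => rw [map_zero]
  | add x y _ _ hx hy => rw [map_add]; exact add_nonneg hx hy

/-- A regular function of negative weight is divisible by the coordinate of the only negative
weight. -/
theorem div_crd (hX : IsTorusManifold 𝒜) (y : FP 𝒜) (l : (Fin r → ℤ) →+ ℤ) {χ : Fin r → ℤ}
    (hl : ∀ ψ, y.Pi ψ → ψ ≠ χ → 0 ≤ l ψ) (hlχ : l χ < 0) {dz : ℕ} {z : R} (hz : Crd y χ dz z)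
    (hm : ∀ v v' : R →ₗ[ℂ] ℂ, IsTangent y.q v → HasWeight 𝒜 y.ν χ v → IsTangent y.q v' →
      HasWeight 𝒜 y.ν χ v' → ∃ c c' : ℂ, (c ≠ 0 ∨ c' ≠ 0) ∧ ∀ h, c * v h + c' * v' h = 0)
    {d : ℤ} {m : Fin r → ℤ} {x : FractionRing R} (hx : HK 𝒜 d m x) (hr : Rg y.q x)
    (hneg : l m < d * l y.ν) : Rg y.q ((iK z)⁻¹ * x) := by
  have hzK : iK z ≠ 0 := iK_ne_zero (crd_ne_zero hz)
  have hzh : HK 𝒜 dz (dz • y.ν + χ) (iK z) := HK.ofR hz.1
  refine rg_of_pole hX y hz hm (hzh.inv hzK |>.mul hx) (k := 1)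
    (by rw [pow_one, mul_inv_cancel_left₀ hzK]; exact hr) ?_
  intro k s hk hs h1
  have h2 := congrArg l h1
  have h3 := closure_nonneg (l := l) (fun ψ hψ => hl ψ hψ.1 hψ.2) hs
  rw [← h2] at h3
  rw [map_add, map_sub, map_add, map_neg, map_add, map_nsmul, map_zsmul, map_nsmul, smul_eq_mul,
    nsmul_eq_mul, nsmul_eq_mul] at h3
  have h4 : (1 : ℤ) ≤ k := by exact_mod_cast hk
  nlinarith

end Vale.Agent.P280.H749
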