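import Vale.Agent.P280.H749.Glob
import Vale.Agent.P280.H749.Loc
import Vale.Agent.P280.H63X.Along
import Vale.Agent.P280.H63X.CurveU
import Vale.Agent.P280.H490.U2
import Vale.Agent.P280.N.A19

/-! P280: the curve leaving a wall in its negative direction ends at the source; the divisor of the
wall. -/

open DirectSum Vale.Agent.P280.T Vale.Agent.P280.H127 Vale.Agent.P280.N

namespace Vale.Agent.P280.H749

open Vale.Agent.P280.H490

variable {r : ℕ} {R : Type} [CommRing R] [IsDomain R] [Algebra ℂ R]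
  {𝒜 : ℕ × (Fin r → ℤ) → Submodule ℂ R} [GradedAlgebra 𝒜]

/-- A nonzero derivation along the curve has a leading weight. -/
theorem dr_lead {y y' : FP 𝒜} {a : Fin r → ℤ} {n : ℕ} {φ : R →ₐ[ℂ] Polynomial ℂ}
    (hφ : Curve y y' a n φ) {χ : Fin r → ℤ} (hne : ∀ k : ℕ, χ + k • a ≠ 0)
    {ε : R →ₗ[ℂ] Polynomial ℂ} (hε : Dr 𝒜 y a χ φ ε) {x : R} (hx : ε x ≠ 0) :
    ∃ k : ℕ, y.Pi (χ + k • a) := by
  classical
  have hex : ∃ k, ∃ h, (ε h).coeff k ≠ 0 := by
    by_contra hcon
    push Not at hcon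
    exact hx (Polynomial.ext fun k => by rw [hcon k x, Polynomial.coeff_zero])
  have hk := Nat.find_spec hex
  have hmin : ∀ h, ∀ i < Nat.find hex, (ε h).coeff i = 0 := by
    intro h i hi
    have := Nat.find_min hex hi
    push Not at this
    exact this h
  generalize Nat.find hex = k at hk hmin
  obtain ⟨h2, hh2⟩ := hk
  have hw := along_weight (y := y) (a := a) (μ := χ) hε.2 k
  rw [natCast_zsmul] at hw
  exact ⟨k, tangentWeight_of_ne y.fix (hne k) (along_tangent hφ.ev hε.1 hmin) hw (by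
    intro h0
    exact hh2 (LinearMap.congr_fun h0 h2))⟩

/-- **(W1)** The curve leaving a wall in its negative direction ends at the source. -/
theorem Wl.pos_end (H : H63X.Hyp 𝒜) {c : (Fin r → ℤ) →+ ℤ} {y : FP 𝒜} {b : Fin r → ℤ}
    (hw : Wl c y b) {p : FP 𝒜} {n : ℕ} {φ : R →ₐ[ℂ] Polynomial ℂ} (hφ : Curve y p (-b) n φ) :
    Pos c p := by
  intro ω hω
  by_contra hcon
  push Not at hcon
  have hb0 : -b ≠ 0 := H63X.ne_zero_of_curve H hφ
  have hcb := hw.pos
  obtain ⟨t, ht, htw, hne⟩ := hω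
  obtain ⟨δ, hδ, hdeg, htop⟩ := H63X.exists_lift H hφ ht htw
  have hdr : Dr 𝒜 y (-b) ω φ δ := ⟨hδ, fun d m h hh hne => by
    obtain ⟨i, -, hi, hc⟩ := hdeg d m h hh hne
    exact ⟨i, hi, hc⟩⟩
  obtain ⟨d, m, h, hh, hth⟩ := hne 0
  rw [zero_mul, zero_mul] at hth
  have hδh : δ h ≠ 0 := by
    intro h0
    apply hth
    rw [← htop d m h hh, h0, Polynomial.coeff_zero]
  have hneg : ∀ k : ℕ, c (ω + k • -b) < 0 := by
    intro k
    rw [map_add, map_nsmul, map_neg, nsmul_eq_mul]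
    have : (0 : ℤ) ≤ k := Nat.cast_nonneg k
    nlinarith
  have hneg0 : ∀ k : ℕ, ω + k • -b ≠ 0 := by
    intro k h0
    have h1 := hneg k
    rw [h0, map_zero] at h1
    exact lt_irrefl _ h1
  by_cases hωb : ω = -b
  · subst hωb
    obtain ⟨e, he⟩ := H63X.der_dir H hφ hδ hdr.2 (by
      intro k hk hpi
      have h1 : -b + (k : ℤ) • -b = (k + 1) • -b := by
        rw [natCast_zsmul, add_smul, one_smul, add_comm]
      rw [h1] at hpi
      have hne : (k + 1) • -b ≠ -b := by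
        intro h2
        rw [add_smul, one_smul, add_eq_right] at h2
        have h3 : (k : ℤ) • b = 0 := by
          rw [← neg_eq_zero, ← smul_neg, natCast_zsmul]
          exact h2
        rcases smul_eq_zero.1 h3 with h4 | h4
        · exact hk (by exact_mod_cast h4)
        · exact hb0 (by rw [h4, neg_zero])
      have h2 := hw.oth _ hpi hne
      rw [map_nsmul, map_neg, nsmul_eq_mul] at h2
      have : (0 : ℤ) ≤ (k + 1 : ℕ) := Nat.cast_nonneg _
      nlinarith) hw.mult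
    apply hth
    rw [← htop d m h hh, he, Polynomial.coeff_C_mul, Polynomial.coeff_derivative]
    have h3 : (φ h).coeff (d * n + 1) = 0 := by
      obtain ⟨i, hi, -, c', hc'⟩ := form hφ hh
      rw [hc', Polynomial.coeff_C_mul_X_pow, if_neg (by omega)]
    rw [h3, zero_mul, mul_zero]
  · obtain ⟨k, hk⟩ := dr_lead hφ hneg0 hdr hδh
    have h1 : ω + k • -b = -b := by
      by_contra h1
      exact absurd (hw.oth _ hk h1) (not_lt.2 (hneg k).le)
    rcases k with _ | k
    · rw [zero_smul, add_zero] at h1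
      exact hωb h1
    · have h2 := hneg k
      have h3 : ω + k • -b = 0 := by
        rw [add_smul, one_smul, ← add_assoc, add_eq_right] at h1
        exact h1
      exact hneg0 k h3

/-- **(W2)** At a wall, a homogeneous function which does not vanish on the curve going to the
source is locally a power of the coordinate of the negative direction. -/
theorem Wl.eq_pow (hX : IsTorusManifold 𝒜) {c : (Fin r → ℤ) →+ ℤ} {y : FP 𝒜} {b : Fin r → ℤ}
    (hw : Wl c y b) {p : FP 𝒜} {n : ℕ} {φ : R →ₐ[ℂ] Polynomial ℂ} (hφ : Curve y p (-b) n φ)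
    {d : ℕ} {m : Fin r → ℤ} {f : R} (hf : f ∈ 𝒜 (d, m)) (hφf : φ f ≠ 0) {dz : ℕ} {z : R}
    (hz : Crd y (-b) dz z) :
    ∃ (i : ℕ) (u : FractionRing R) (e : ℂ), e ≠ 0 ∧ Val y.q u e ∧ iK f = (iK z) ^ i * u := by
  have hb0 : b ≠ 0 := by
    rintro rfl
    exact absurd hw.pos (by rw [map_zero]; exact lt_irrefl _)
  obtain ⟨i, -, hm, e, he⟩ := hφ.hom d m f hf hφf
  have hzK : iK z ≠ 0 := iK_ne_zero (crd_ne_zero hz)
  have hzh : HK 𝒜 dz (dz • y.ν + -b) (iK z) := HK.ofR hz.1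
  have hzi : HK 𝒜 (-((i : ℤ) * dz)) (-((i : ℤ) • (dz • y.ν + -b))) ((iK z) ^ i)⁻¹ := by
    have h1 := XF.hk_zpow hzh hzK i
    rw [zpow_natCast] at h1
    exact h1.inv (pow_ne_zero _ hzK)
  have hu : HK 𝒜 (-((i : ℤ) * dz) + d) (-((i : ℤ) • (dz • y.ν + -b)) + m)
      (((iK z) ^ i)⁻¹ * iK f) := hzi.mul (HK.ofR hf)
  have hm' : -((i : ℤ) • (dz • y.ν + -b)) + m = (-((i : ℤ) * dz) + d : ℤ) • y.ν := by
    rw [hm]
    module
  set u : FractionRing R := ((iK z) ^ i)⁻¹ * iK f with hudef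
  have hfu : iK f = (iK z) ^ i * u := by
    rw [hudef, mul_inv_cancel_left₀ (pow_ne_zero _ hzK)]
  have hr : Rg y.q u := by
    refine rg_of_pole hX y hz hw.mult hu (k := i) (by rw [← hfu]; exact Rg.iK f) ?_
    intro k s hk hs h1
    have h2 := congrArg c h1
    have h3 := closure_nonneg (l := c) (fun ψ hψ => (hw.oth ψ hψ.1 hψ.2).le) hs
    rw [← h2, hm', sub_self, zero_add, map_nsmul, map_neg, nsmul_eq_mul] at h3
    have h4 : (1 : ℤ) ≤ k := by exact_mod_cast hk
    nlinarith [hw.pos]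
  obtain ⟨e', he'⟩ := hr.val
  refine ⟨i, u, e', ?_, he', hfu⟩
  rintro rfl
  obtain ⟨k, k', s, a, hs, ha, hk', hqs, e1⟩ := HK.exists_den hX y.nv y.fix hu hr
  -- `a` vanishes at `y`, so on the curve
  have hqa : y.q a = 0 := by
    have h1 : Val y.q (iK s * u) (y.q s * 0) := (Val.iK s).mul he'
    rw [e1, mul_zero] at h1
    exact (Val.iK a).unique h1
  have hφa : φ a = 0 := by
    by_contra hne
    obtain ⟨i', -, hi', e3, he3⟩ := hφ.hom k' _ a ha hne
    have h5 : i' = 0 := by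
      have h6 : (i' : ℤ) • b = 0 := by
        have h7 : -((i : ℤ) • (dz • y.ν + -b)) + m + k • y.ν = (k' : ℤ) • y.ν := by
          rw [hm', hk']
          module
        rw [h7] at hi'
        have h8 : i' • -b = 0 := by
          rw [natCast_zsmul] at hi'
          exact (left_eq_add.1 hi')
        rw [← neg_eq_zero, ← smul_neg, natCast_zsmul]
        exact h8
      rcases smul_eq_zero.1 h6 with h9 | h9
      · exact_mod_cast h9
      · exact absurd h9 hb0
    apply hne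
    rw [he3, h5, pow_zero, mul_one]
    have h6 := hφ.ev a
    rw [he3, h5, pow_zero, mul_one, Polynomial.eval_C, hqa] at h6
    rw [h6, Polynomial.C_0]
  have hsf : s * f = z ^ i * a := by
    apply iK_inj
    rw [iK_mul, iK_mul, iK_pow, hfu, ← e1]
    ring
  have h1 : φ s * φ f = 0 := by
    rw [← map_mul, hsf, map_mul, hφa, mul_zero]
  rcases mul_eq_zero.1 h1 with h2 | h2
  · have h3 := hφ.ev s
    rw [h2, Polynomial.eval_zero, hqs] at h3
    exact zero_ne_one h3
  · exact hφf h2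

/-- **(W3)**, functions: a homogeneous function which is regular at the source has at a wall only
poles along the coordinate of the negative direction. -/
theorem Wl.pole_fun (hX : IsTorusManifold 𝒜) {c : (Fin r → ℤ) →+ ℤ} {y : FP 𝒜}
    {b : Fin r → ℤ} (hw : Wl c y b) {p : FP 𝒜} {n : ℕ} {φ : R →ₐ[ℂ] Polynomial ℂ}
    (hφ : Curve y p (-b) n φ) {d : ℤ} {m : Fin r → ℤ} {x : FractionRing R} (hx : HK 𝒜 d m x)
    (hr : Rg p.q x) {dz : ℕ} {z : R} (hz : Crd y (-b) dz z) :
    ∃ k : ℕ, Rg y.q ((iK z) ^ k * x) := by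
  obtain ⟨k, k', s, a, hs, ha, hk', hqs, e1⟩ := HK.exists_den hX p.nv p.fix hx hr
  have hφs : φ s ≠ 0 := by
    intro h0
    have h1 := hφ.ev' k _ s hs
    rw [h0, Polynomial.coeff_zero, hqs] at h1
    exact zero_ne_one h1
  obtain ⟨i, u, e, he, hu, hsu⟩ := hw.eq_pow hX hφ hs hφs hz
  refine ⟨i, ?_⟩
  have h1 : u * ((iK z) ^ i * x) = iK a := by
    rw [← e1, hsu]
    ring
  exact (Rg.mul_iff hu he).1 (by rw [h1]; exact Rg.iK a)

/-- **(W3)**, fields: a homogeneous rational field which is regular at the source has at a wall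
only poles along the coordinate of the negative direction. -/
theorem Wl.pole (hX : IsTorusManifold 𝒜) {c : (Fin r → ℤ) →+ ℤ} {y : FP 𝒜}
    {b : Fin r → ℤ} (hw : Wl c y b) {p : FP 𝒜} {n : ℕ} {φ : R →ₐ[ℂ] Polynomial ℂ}
    (hφ : Curve y p (-b) n φ) {lam : Fin r → ℤ} {v : VF R} (hv : HV 𝒜 lam v)
    (hr : RgV p.q v) {dz : ℕ} {z : R} (hz : Crd y (-b) dz z) :
    ∃ k : ℕ, RgV y.q ((iK z) ^ k • v) := by
  obtain ⟨N, γ, g, D, hg, hg0, hD, hDh⟩ := H900.exists_den hX hv
  obtain ⟨s, hs, hs'⟩ := H900.exists_cond hX hr hD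
  obtain ⟨i, hi⟩ := exists_comp_ne (𝒜 := 𝒜) hs
  have hc : (decompose 𝒜 s i : R) ∈ cond g D :=
    cond_homogeneous (𝒜 := 𝒜) hg D.toLinearMap
      (fun i h hh => ⟨_, hDh i.1 i.2 h hh⟩) (x := s) hs' i
  have hmem : (decompose 𝒜 s i : R) ∈ 𝒜 (i.1, i.2) := (decompose 𝒜 s i).2
  generalize (decompose 𝒜 s i : R) = s1 at hi hc hmem
  have hφs : φ s1 ≠ 0 := by
    intro h0
    have h1 := hφ.ev' _ _ s1 hmem
    rw [h0, Polynomial.coeff_zero] at h1
    exact hi h1.symm
  obtain ⟨j, u, e, he, hu, hsu⟩ := hw.eq_pow hX hφ hmem hφs hz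
  refine ⟨j, fun h => ?_⟩
  obtain ⟨a, ha⟩ := hc h
  have h2 : iK s1 * v (iK h) = iK a := by
    apply mul_left_cancel₀ (iK_ne_zero hg0)
    rw [← iK_mul, ← ha, iK_mul s1, hD]
    ring
  rw [Derivation.smul_apply, smul_eq_mul]
  have h1 : u * ((iK z) ^ j * v (iK h)) = iK a := by
    rw [← h2, hsu]
    ring
  exact (Rg.mul_iff hu he).1 (by rw [h1]; exact Rg.iK a)

end Vale.Agent.P280.H749
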