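import Vale.Agent.P280.N.A15
import Vale.Agent.P280.H63X.Fin

/-! P280: walls of a chamber. A homogeneous rational field which is regular at the sources and at
the walls of a chamber is global (several walls in the same direction are allowed, any
multiplicities). -/

open DirectSum Vale.Agent.P280.T Vale.Agent.P280.H127 Vale.Agent.P280.N

namespace Vale.Agent.P280.H749

variable {r : ℕ} {R : Type} [CommRing R] [IsDomain R] [Algebra ℂ R]
  {𝒜 : ℕ × (Fin r → ℤ) → Submodule ℂ R}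

/-- `y` is a wall of the chamber of `c`, in the direction `b`: all weights at `y` are positive for
`c` except `-b`, which has multiplicity one. -/
structure Wl (c : (Fin r → ℤ) →+ ℤ) (y : FP 𝒜) (b : Fin r → ℤ) : Prop where
  pi : y.Pi (-b)
  pos : 0 < c b
  oth : ∀ ψ, y.Pi ψ → ψ ≠ -b → 0 < c ψ
  mult : ∀ v v' : R →ₗ[ℂ] ℂ, IsTangent y.q v → HasWeight 𝒜 y.ν (-b) v → IsTangent y.q v' →
    HasWeight 𝒜 y.ν (-b) v' → ∃ c c' : ℂ, (c ≠ 0 ∨ c' ≠ 0) ∧ ∀ h, c * v h + c' * v' h = 0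

variable [GradedAlgebra 𝒜]

/-- **The lowest polar point.** -/
theorem exists_wall (hX : IsTorusManifold 𝒜) (c : (Fin r → ℤ) →+ ℤ)
    (hc : ∀ μ, Wt 𝒜 μ → c μ ≠ 0) {lam : Fin r → ℤ} {v : VF R} (hv : HV 𝒜 lam v)
    {z : R →ₐ[ℂ] ℂ} (hz0 : ¬ IsVertex 𝒜 z) (hz : ¬ RgV z v) :
    ∃ y : FP 𝒜, ¬ RgV y.q v ∧ (Pos c y ∨ ∃ b, Wl c y b ∧
      ∀ d z, Crd y (-b) d z → ∃ k : ℕ, RgV y.q ((iK z) ^ k • v)) := by
  obtain ⟨N, γ, g, D, hg, hg0, hD, hDh⟩ := H900.exists_den hX hv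
  have hbad : ∀ z : R →ₐ[ℂ] ℂ, ¬ RgV z v ↔
      ∀ x ∈ H347.polar (Fin.elim0 : Fin 0 → Derivation ℂ R R) g D, z x = 0 := by
    intro z
    have h1 : RgV z v ↔ RM z (Set.range fun i : Fin 0 => toVF (Fin.elim0 i)) v := by
      rw [Set.range_eq_empty]
      exact rm_empty.symm
    rw [h1, H347.rm_iff_regMod hX hg0 hD, H347.regMod_iff_polar]
    push Not
    rfl
  obtain ⟨γ0, q, hq0, hqI, hq1, hq2, ν, hν, f, hf, hqf⟩ := exists_lowest hX (lexF 0 c)
    (I := H347.polar (Fin.elim0 : Fin 0 → Derivation ℂ R R) g D)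
    (fun x hx i => H347.decompose_mem_polar (χ := Fin.elim0) (h := Fin.elim0) (η := Fin.elim0)
      (κ := γ - lam)
      (fun i => i.elim0) (fun i => i.elim0)
      (fun d m x hx => by
        have h2 := hDh d m x hx
        rwa [add_sub_assoc] at h2) hg hg0 (by rw [Matrix.det_isEmpty]; exact one_ne_zero) hx i)
    ⟨z, (hbad z).1 hz, hz0⟩
  have hfix : IsFixed 𝒜 q ν := by
    intro d m h hh hne
    apply lexF_inj 0 c
    rw [hq1 d m h hh hne, map_nsmul, hν]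
  set y : FP 𝒜 := ⟨q, ν, hq0, hfix⟩ with hy
  obtain ⟨n, u, wt, G, hn⟩ := exists_params_T hX
      (f := rl (AddMonoidHom.id (Fin r → ℤ)) ν) hq0 (fix_of_isFixed hfix)
  have hrad : ∀ (d : ℕ) (m : Fin r → ℤ), lexF 0 c (m - d • ν) < 0 → ∀ x ∈ 𝒜 (d, m),
      x ∈ (H347.polar (Fin.elim0 : Fin 0 → Derivation ℂ R R) g D).radical := by
    intro d m hlm x hx
    by_contra hcon
    have h2 := hq2 d m x hx hcon
    rw [map_sub, map_nsmul, hν, sub_neg] at hlm
    exact absurd hlm (not_lt.2 h2)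
  obtain ⟨hs1, -⟩ := H347.local_step hX hq0 hfix G hn (χ := Fin.elim0) (ι := Fin.elim0)
    (fun i => i.elim0) (by rw [Matrix.det_isEmpty, map_one]; exact one_ne_zero) hg hg0 hDh hqI
    (fun m => lexF 0 c m < 0) hrad
  have hneg : ∀ b, c b < 0 → lexF 0 c b < 0 := fun b hcb => lexF_neg rfl hcb
  have hbady : ¬ RgV y.q v := (hbad q).2 hqI
  refine ⟨y, hbady, ?_⟩
  by_cases hpos : Pos c y
  · exact Or.inl hpos
  right
  unfold Pos at hpos
  push Not at hpos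
  obtain ⟨b, hb, hcb⟩ := hpos
  obtain ⟨i1, hi1⟩ := wt_of_tangentWeight hX hfix G hn hb
  have huniq : ∀ i, c (wt i) < 0 → i = i1 := by
    intro i hi
    exact hs1 i i1 (hneg _ hi) (by rw [hi1]; exact hneg b hcb)
  refine ⟨-b, ⟨by rwa [neg_neg], by rw [map_neg]; omega, ?_, ?_⟩, ?_⟩
  · intro ψ hψ hne
    rw [neg_neg] at hne
    have h1 := hc ψ ⟨y, hψ⟩
    by_contra hcon
    obtain ⟨i2, hi2⟩ := wt_of_tangentWeight hX hfix G hn hψ
    apply hne
    rw [← hi2, huniq i2 (by rw [hi2]; omega), hi1]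
  · intro t t' ht ht1 ht' ht1'
    rw [neg_neg] at ht1 ht1'
    exact H63X.dep_of_unique hX y G (i1 := i1) (fun j hj => huniq j (by rw [hj]; exact hcb))
      ht ht1 ht' ht1'
  · intro d z hz
    rw [neg_neg] at hz
    obtain ⟨j, hj⟩ := hrad d (d • ν + b) (by rw [add_sub_cancel_left]; exact hneg b hcb) z hz.1
    refine ⟨j, ?_⟩
    have hD' : ∀ h, iK ((z ^ j • D) h) = iK g * ((iK z ^ j • v) (iK h)) := by
      intro h
      rw [Derivation.smul_apply, smul_eq_mul, iK_mul, hD, iK_pow, Derivation.smul_apply,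
        smul_eq_mul]
      ring
    have h1 : RgV y.q (iK z ^ j • v) ↔
        RM y.q (Set.range fun i : Fin 0 => toVF (Fin.elim0 i)) (iK z ^ j • v) := by
      rw [Set.range_eq_empty]
      exact rm_empty.symm
    rw [h1, H347.rm_iff_regMod hX hg0 hD', H347.regMod_iff_polar]
    refine ⟨1, ?_, by rw [map_one]; exact one_ne_zero⟩
    obtain ⟨c', a, hc', H'⟩ := H347.mem_polar.1 hj
    refine H347.mem_polar.2 ⟨c', a, hc', fun x => ?_⟩
    obtain ⟨t, ht⟩ := H' x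
    refine ⟨t, ?_⟩
    rw [← ht, Derivation.smul_apply, smul_eq_mul]
    ring

end Vale.Agent.P280.H749
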