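import Vale.Agent.P280.H749.Stp
import Vale.Agent.P280.H690.WallStep
import Vale.Agent.P280.H143.Sink
import Vale.Agent.P280.H60.Crit

/-! P280: the lifting criterion with data at the walls. -/

open DirectSum Vale.Agent.P280.T Vale.Agent.P280.H127 Vale.Agent.P280.N

namespace Vale.Agent.P280.H749

open Vale.Agent.P280.H60

variable {r : ℕ} {R : Type} [CommRing R] [IsDomain R] [Algebra ℂ R]
  {𝒜 : ℕ × (Fin r → ℤ) → Submodule ℂ R}

/-- A sum of multiples of elements of a set is the sum of a list. -/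
theorem exists_list_sum {M : Type} [AddCommMonoid M] (S : Set M) {n : ℕ} (m : Fin n → ℕ)
    (wt : Fin n → M) (h : ∀ a, m a ≠ 0 → wt a ≠ 0 → wt a ∈ S) :
    ∃ L : List M, (∀ μ ∈ L, μ ∈ S) ∧ L.sum = ∑ a, m a • wt a := by
  refine AddSubmonoid.exists_list_of_mem_closure (s := S) (AddSubmonoid.sum_mem _ fun a _ => ?_)
  by_cases h0 : m a = 0
  · rw [h0, zero_smul]
    exact AddSubmonoid.zero_mem _
  · by_cases h1 : wt a = 0
    · rw [h1, smul_zero]
      exact AddSubmonoid.zero_mem _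
    · exact AddSubmonoid.nsmul_mem _ (AddSubmonoid.subset_closure (h a h0 h1)) _

variable {ι : Type} [Fintype ι] {c : (Fin r → ℤ) →+ ℤ} {v : VF R}
  {g : FP 𝒜 → ι → FractionRing R} {T : Finset (R × (ι → FractionRing R))}

variable [GradedAlgebra 𝒜]

omit [Fintype ι] in
/-- A lowest point outside the cover. -/
theorem exists_low (hX : IsTorusManifold 𝒜) (hom : ∀ P ∈ T, ∃ d m, P.1 ∈ 𝒜 (d, m))
    (hne : ∃ z : R →ₐ[ℂ] ℂ, (∀ P ∈ T, z P.1 = 0) ∧ ¬ IsVertex 𝒜 z) :
    ∃ z : FP 𝒜, (∀ P ∈ T, z.q P.1 = 0) ∧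
      (∀ z' : FP 𝒜, (∀ P ∈ T, z'.q P.1 = 0) → c z.ν ≤ c z'.ν) ∧
      ∀ (d : ℕ) (m : Fin r → ℤ), c m < d * c z.ν → ∀ x ∈ 𝒜 (d, m), x ∈ (cvI T).radical := by
  obtain ⟨q0, hq0T, hq0v⟩ := hne
  obtain ⟨γ, q, hq0, hqI, hq1, hq2, ν, hν, f1, hf1, hqf1⟩ := exists_lowest hX (lexF c 0)
    (I := cvI T) (by
      have h1 : (cvI T).IsHomogeneous 𝒜 := by
        refine Ideal.homogeneous_span 𝒜 _ ?_
        rintro x ⟨P, hP, rfl⟩
        obtain ⟨d, m, h⟩ := hom P hP
        exact ⟨(d, m), h⟩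
      exact fun x hx i => h1 i hx) ⟨q0, cvI_zero.2 hq0T, hq0v⟩
  have hfix : IsFixed 𝒜 q ν := by
    intro d m h hh hne
    apply lexF_inj c 0
    rw [hq1 d m h hh hne, map_nsmul, hν]
  refine ⟨⟨q, ν, hq0, hfix⟩, fun P hP => hqI _ (mem_cvI hP), ?_, ?_⟩
  · intro z' hz'
    obtain ⟨m1, f1, hf1, hne1⟩ := (not_isVertex_iff hX.gen z'.q).1 z'.nv
    have h2 := hq2 1 m1 f1 hf1 (by
      rintro ⟨n, hn⟩
      have h3 := (cvI_zero (T := T)).2 hz' _ hn
      rw [map_pow] at h3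
      exact hne1 (eq_zero_of_pow_eq_zero h3))
    have h4 : m1 = z'.ν := by
      have h5 := z'.fix 1 m1 f1 hf1 hne1
      rwa [one_smul] at h5
    rw [one_smul, ← hν, h4] at h2
    exact fst_le_of_lexF_le h2
  · intro d m hm x hx
    by_contra hcon
    have h2 := hq2 d m x hx hcon
    rw [← hν, ← map_nsmul] at h2
    have h3 := fst_le_of_lexF_le h2
    rw [map_nsmul, nsmul_eq_mul] at h3
    exact absurd hm (not_lt.2 h3)

/-- **The step.** -/
theorem Dt.step (H : H63X.Hyp 𝒜) (hc : ∀ μ, Wt 𝒜 μ → c μ ≠ 0) {p : FP 𝒜} (hp : Pos c p)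
    {χ : Fin r → ℤ} {w : ι → Fin r → ℤ} (hinj : Function.Injective w)
    {E : ι → Derivation ℂ R R} (hE : ∀ i, H93.IsHField 𝒜 (w i) (E i)) (hv : HV 𝒜 χ v)
    (hg : ∀ y b, Wl c y b → ∀ i, HK 𝒜 0 (w i - χ) (g y i))
    (hgp : ∀ y b, Wl c y b → ∀ i d z, Crd y (-b) d z → ∃ k : ℕ, Rg y.q (iK z ^ k * g y i))
    (hgs : ∀ y b y', Wl c y b → SamePoint 𝒜 y.q y'.q → ∀ i, Rg y.q (g y i - g y' i))
    (hgv : ∀ y b, Wl c y b → RgV y.q (v - ∑ i, g y i • toVF (E i)))
    (C3 : ∀ (z : FP 𝒜) (b b' : Fin r → ℤ), z.Pi (-b) → z.Pi (-b') → 0 < c b → 0 < c b' →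
      (∀ ψ, z.Pi ψ → ψ ≠ -b → ψ ≠ -b' → 0 < c ψ) → (b ≠ b' → One 𝒜 z (-b) ∧ One 𝒜 z (-b')) →
      ∀ i, (∃ h, z.q (E i h) ≠ 0) ∨ ∀ (k k' : ℕ) (M : List (Fin r → ℤ)), 1 ≤ k → 1 ≤ k' →
        (∀ μ ∈ M, z.Pi μ ∧ 0 < c μ) → w i ≠ χ + k • b + k' • b' + M.sum)
    (hT : Dt 𝒜 c (fun i => w i - χ) (fun i => toVF (E i)) v g T) {f : R} {df : ℕ}
    {mf : Fin r → ℤ} (hf : f ∈ 𝒜 (df, mf)) (hpf : p.q f ≠ 0) (hfT : (f, 0) ∈ T)
    (hne : ∃ z : R →ₐ[ℂ] ℂ, (∀ P ∈ T, z P.1 = 0) ∧ ¬ IsVertex 𝒜 z) :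
    ∃ T' : Finset (R × (ι → FractionRing R)),
      Dt 𝒜 c (fun i => w i - χ) (fun i => toVF (E i)) v g T' ∧ T ⊆ T' ∧ cvI T < cvI T' := by
  have hX := H.hX
  obtain ⟨z, hz, hlow, hrad⟩ := exists_low (c := c) hX
    (fun P hP => by
      obtain ⟨d, m, -, h⟩ := hT.hom P hP
      exact ⟨d, m, h⟩) hne
  have hwv : ∀ l, HV 𝒜 (χ + (w l - χ)) (toVF (E l)) := fun l =>
    (hv_toVF (hE l)).cast (by abel)
  have hfv : ∀ x : ι → FractionRing R, (∀ l, HK 𝒜 0 (w l - χ) (x l)) →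
      HV 𝒜 χ (v - ∑ l, x l • toVF (E l)) := by
    intro x hx
    refine hv.sub (HV.sum _ fun l _ => ?_)
    exact (HV.smul (hx l) (hwv l)).cast (by abel)
  by_cases hA : ∃ (y : FP 𝒜) (b : Fin r → ℤ), Wl c y b ∧ SamePoint 𝒜 z.q y.q
  · obtain ⟨y, b, hy, hzy⟩ := hA
    have hyz := A04.samePoint_symm hzy
    refine hT.extend hX z hz hlow (H60.sep H z) (x := g y) (hg y b hy)
      (H690.wall_step H hc hT hp hf hpf hfT z hz hy hzy (hg y b hy) (hgp y b hy))
      (hfv _ (hg y b hy)) (H60.same_rgV' hX hyz (hfv _ (hg y b hy)) (hgv y b hy)) ?_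
    intro y' b' hy' hzy' i
    exact hgs y' b' y hy' (H60.same_trans (A04.samePoint_symm hzy') hzy) i
  · obtain ⟨-, n, u, wt, -, -, G, hn, hcrd, -, -, hpi⟩ :=
      H690.hgens' hX z (H.iso _ _ z.nv z.fix)
    have hne0 : ∀ k, c (wt k) < 0 → wt k ≠ 0 := by
      intro k hk h0
      rw [h0, map_zero] at hk
      exact lt_irrefl _ hk
    have hhom : ∀ k, wt k ≠ 0 → ∃ d, 0 < d ∧ u k ∈ 𝒜 (d, d • z.ν + wt k) := by
      intro k hk
      obtain ⟨d, hd, h⟩ := hcrd k hk
      exact ⟨d, hd, h.1⟩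
    have hradk : ∀ k, c (wt k) < 0 → u k ∈ (cvI T).radical := by
      intro k hk
      obtain ⟨d, -, h⟩ := hhom k (hne0 k hk)
      refine hrad d _ ?_ _ h
      rw [map_add, map_nsmul, nsmul_eq_mul]
      linarith
    -- a negative parameter
    obtain ⟨i, hi⟩ : ∃ i, c (wt i) < 0 := by
      by_contra hcon
      push Not at hcon
      have hPos : Pos c z := by
        intro ψ hψ
        obtain ⟨i, -, rfl⟩ := (hpi ψ).1 hψ
        exact hcon i
      have h1 := A04.samePoint_ne (H63X.pos_unique H c hc hp hPos) hf hpf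
      exact h1 (hz _ hfT)
    -- a second one
    obtain ⟨j, hij, hj⟩ : ∃ j, i ≠ j ∧ c (wt j) < 0 := by
      by_contra hcon
      push Not at hcon
      refine hA ⟨z, -wt i, ⟨?_, ?_, ?_, ?_⟩, H60.same_refl _⟩
      · rw [neg_neg]
        exact (hpi _).2 ⟨i, hne0 i hi, rfl⟩
      · rw [map_neg]
        omega
      · intro ψ hψ hne
        rw [neg_neg] at hne
        obtain ⟨j, -, rfl⟩ := (hpi ψ).1 hψ
        have h1 := hcon j (fun h => hne (by rw [h]))
        exact lt_of_le_of_ne h1 (hc _ ⟨z, hψ⟩).symm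
      · intro v v' h1 h2 h3 h4
        refine H63X.dep_of_unique hX z G (χ := - -wt i) (i1 := i) ?_ h1 h2 h3 h4
        intro j hj
        rw [neg_neg] at hj
        by_contra hne
        have h5 := hcon j (fun h => hne h.symm)
        rw [hj] at h5
        omega
    obtain ⟨x, hx, hx1, hx2⟩ := hT.exists_sol hX hinj hE hv z G hn hhom hradk hij hi hj (by
      intro honly l
      have huniq : wt i ≠ wt j → ∀ k, (c (wt k) < 0 → k = i ∨ k = j) := fun _ k hk =>
        honly k hk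
      have h1 := C3 z (-wt i) (-wt j) (by rw [neg_neg]; exact (hpi _).2 ⟨i, hne0 i hi, rfl⟩)
        (by rw [neg_neg]; exact (hpi _).2 ⟨j, hne0 j hj, rfl⟩) (by rw [map_neg]; omega)
        (by rw [map_neg]; omega) (by
          intro ψ hψ h2 h3
          rw [neg_neg] at h2 h3
          obtain ⟨k, -, rfl⟩ := (hpi ψ).1 hψ
          by_contra hcon
          have h4 : c (wt k) < 0 := by
            have := hc _ ⟨z, hψ⟩
            omega
          rcases honly k h4 with rfl | rfl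
          · exact h2 rfl
          · exact h3 rfl) (by
          intro hne
          have hne' : wt i ≠ wt j := fun h => hne (by rw [h])
          constructor
          · intro v v' h1 h2 h3 h4
            refine H63X.dep_of_unique hX z G (χ := - -wt i) (i1 := i) ?_ h1 h2 h3 h4
            intro k hk
            rw [neg_neg] at hk
            rcases honly k (by rw [hk]; exact hi) with rfl | rfl
            · rfl
            · exact absurd hk.symm hne'
          · intro v v' h1 h2 h3 h4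
            refine H63X.dep_of_unique hX z G (χ := - -wt j) (i1 := j) ?_ h1 h2 h3 h4
            intro k hk
            rw [neg_neg] at hk
            rcases honly k (by rw [hk]; exact hj) with rfl | rfl
            · exact absurd hk hne'
            · rfl) l
      refine h1.imp_right fun h2 => ?_
      intro k k' m hk hk' hmi hmj heq
      obtain ⟨L, hL, hLs⟩ := exists_list_sum {μ | z.Pi μ ∧ 0 < c μ} m wt (by
        intro a ha ha0
        have h3 : z.Pi (wt a) := (hpi _).2 ⟨a, ha0, rfl⟩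
        refine ⟨h3, ?_⟩
        by_contra hcon
        have h4 : c (wt a) < 0 := by
          have := hc _ ⟨z, h3⟩
          omega
        rcases honly a h4 with rfl | rfl
        · exact ha hmi
        · exact ha hmj)
      apply h2 k k' L hk hk' hL
      rw [hLs, ← heq, smul_neg, smul_neg]
      abel)
    refine hT.extend hX z hz hlow (H60.sep H z) hx hx1 (hfv x hx) hx2 ?_
    intro y b hy hzy
    exact absurd ⟨y, b, hy, hzy⟩ hA

/-- **CRIT_DATA.** -/
theorem crit_data (H : H63X.Hyp 𝒜) : H60.CritData 𝒜 := by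
  intro c hc hex p hp χ ι _ w hinj E hE hcw v hv hvp g hg hgp hgs hgv C3
  classical
  have hX := H.hX
  have := noeth hX
  obtain ⟨k0, s0, hk0, hs0, hps0, hs0'⟩ := open_field hX p hv hvp
  have hlowp : Low c p := (H63X.low_iff H c p).2 hp
  have h0 : Dt 𝒜 c (fun i => w i - χ) (fun i => toVF (E i)) v g {(s0, 0)} := by
    refine { hom := ?_, hk := ?_, cmp := ?_, fld := ?_, wal := ?_, slp := ?_ }
    · intro P hP
      rw [Finset.mem_singleton.1 hP]
      exact ⟨k0, _, hk0, hs0⟩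
    · intro P hP i
      rw [Finset.mem_singleton.1 hP]
      change HK 𝒜 0 (w i - χ) 0
      exact HK.zero (𝒜 := 𝒜) le_rfl
    · intro P hP P' hP' q _ _ i
      rw [Finset.mem_singleton.1 hP, Finset.mem_singleton.1 hP', sub_self]
      exact Rg.zero
    · intro P hP q hq
      rw [Finset.mem_singleton.1 hP] at hq ⊢
      have h1 : (v - ∑ i, ((s0, (0 : ι → FractionRing R))).2 i • toVF (E i)) = v := by
        have h2 : ∑ i, ((s0, (0 : ι → FractionRing R))).2 i • toVF (E i) = 0 :=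
          Finset.sum_eq_zero (fun i _ => zero_smul (FractionRing R) (toVF (E i)))
        rw [h2, sub_zero]
      rw [h1]
      exact hs0' q hq
    · intro P hP y b hy hyP
      exfalso
      rw [Finset.mem_singleton.1 hP] at hyP
      have h1 := y.fix k0 _ s0 hs0 hyP
      have h2 : y.ν = p.ν := by
        have h6 : (k0 : ℤ) • y.ν = (k0 : ℤ) • p.ν := by
          rw [natCast_zsmul, natCast_zsmul, h1]
        have hk0 : (k0 : ℤ) ≠ 0 := by exact_mod_cast hk0.ne'
        exact smul_right_injective _ hk0 h6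
      have h3 : Low c y := by
        intro d m h hh hne
        rw [h2]
        exact hlowp d m h hh hne
      have h4 := (H63X.low_iff H c y).1 h3 (-b) hy.pi
      rw [map_neg] at h4
      have := hy.pos
      omega
    · intro P hP z hz
      rw [Finset.mem_singleton.1 hP]
      refine ⟨k0, _, hs0, ?_⟩
      rw [map_nsmul, nsmul_eq_mul]
      refine mul_le_mul_of_nonneg_left ?_ (Nat.cast_nonneg k0)
      obtain ⟨m1, f1, hf1, hne1⟩ := (not_isVertex_iff hX.gen z.q).1 z.nv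
      have h1 := hlowp 1 m1 f1 hf1 (by
        intro h
        rw [h, map_zero] at hne1
        exact hne1 rfl)
      have h4 : m1 = z.ν := by
        have h5 := z.fix 1 m1 f1 hf1 hne1
        rwa [one_smul] at h5
      rwa [one_smul, h4] at h1
  -- a maximal datum
  obtain ⟨I, ⟨T, hT, hsT, rfl⟩, hmax⟩ := set_has_maximal_iff_noetherian.2 (inferInstance :
    IsNoetherian R R) {I : Ideal R | ∃ T : Finset (R × (ι → FractionRing R)),
      Dt 𝒜 c (fun i => w i - χ) (fun i => toVF (E i)) v g T ∧ (s0, 0) ∈ T ∧ cvI T = I}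
    ⟨_, _, h0, Finset.mem_singleton_self _, rfl⟩
  have hall : ∀ z : R →ₐ[ℂ] ℂ, (∀ P ∈ T, z P.1 = 0) → IsVertex 𝒜 z := by
    by_contra hcon
    push Not at hcon
    obtain ⟨T', hT', hTT', hlt⟩ := hT.step H hc hp hinj hE hv hg hgp hgs hgv C3 hs0 hps0 hsT hcon
    exact hmax _ ⟨T', hT', hTT' hsT, rfl⟩ hlt
  obtain ⟨ψ, hψ, hψT⟩ := H143.sink H hc (θ := fun i => w i - χ) (fun i => by
    rw [map_sub]
    have := hcw i
    omega) hT.toCv hall
  refine ⟨ψ, hψ, ?_, ?_, ?_⟩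
  · intro i
    have h1 : Rg p.q (ψ i - 0) := hψT _ hsT p.q hps0 i
    rwa [sub_zero] at h1
  · intro y b hy i
    obtain ⟨P, hP, hyP⟩ : ∃ P ∈ T, y.q P.1 ≠ 0 := by
      by_contra hcon
      push Not at hcon
      exact y.nv (hall y.q hcon)
    have h1 := (hψT P hP y.q hyP i).sub (hT.wal P hP y b hy hyP i)
    rwa [sub_sub_sub_cancel_right] at h1
  · have hwv : ∀ l, HV 𝒜 (χ + (w l - χ)) (toVF (E l)) := fun l =>
      (hv_toVF (hE l)).cast (by abel)
    have hvψ : HV 𝒜 χ (v - ∑ l, ψ l • toVF (E l)) := by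
      refine hv.sub (HV.sum _ fun l _ => ?_)
      exact (HV.smul (hψ l) (hwv l)).cast (by abel)
    obtain ⟨μ, y, hμ⟩ := hex
    refine glob_of_reg hX hμ (fun h0 => hc μ ⟨y, hμ⟩ (by rw [h0, map_zero])) hvψ ?_
    intro q hq
    obtain ⟨P, hP, hqP⟩ : ∃ P ∈ T, q P.1 ≠ 0 := by
      by_contra hcon
      push Not at hcon
      exact hq (hall q hcon)
    exact rgV_congr (fun i => (toVF_glob (E i)).rgV) (hT.fld P hP q hqP) (hψT P hP q hqP)

end Vale.Agent.P280.H749
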