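import Vale.Agent.P280.H749.End

/-! P280: finite covers by principal open sets, gluing over an affine open set. -/

open DirectSum Vale.Agent.P280.T Vale.Agent.P280.H127 Vale.Agent.P280.N

namespace Vale.Agent.P280.H749

variable {r : ℕ} {R : Type} [CommRing R] [IsDomain R] [Algebra ℂ R]
  {𝒜 : ℕ × (Fin r → ℤ) → Submodule ℂ R}

/-- The denominators of a rational function. -/
def dn (x : FractionRing R) : Ideal R where
  carrier := {s | ∃ a : R, iK s * x = iK a}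
  zero_mem' := ⟨0, by rw [iK_zero, zero_mul]⟩
  add_mem' := by
    rintro s t ⟨a, ha⟩ ⟨b, hb⟩
    exact ⟨a + b, by rw [iK_add, add_mul, ha, hb, iK_add]⟩
  smul_mem' := by
    rintro t s ⟨a, ha⟩
    exact ⟨t * a, by rw [smul_eq_mul, iK_mul, mul_assoc, ha, iK_mul]⟩

theorem mem_dn {x : FractionRing R} {s : R} : s ∈ dn x ↔ ∃ a : R, iK s * x = iK a := Iff.rfl

theorem rg_iff_dn {q : R →ₐ[ℂ] ℂ} {x : FractionRing R} : Rg q x ↔ ∃ s ∈ dn x, q s ≠ 0 := by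
  constructor
  · rintro ⟨a, s, hs, e⟩
    exact ⟨s, ⟨a, e⟩, hs⟩
  · rintro ⟨s, ⟨a, e⟩, hs⟩
    exact ⟨a, s, hs, e⟩

/-- A function which is regular where `t ≠ 0` has a power of `t` as a denominator. -/
theorem pow_of_rg (hft : Algebra.FiniteType ℂ R) {t : R} {x : FractionRing R}
    (h : ∀ q : R →ₐ[ℂ] ℂ, q t ≠ 0 → Rg q x) : ∃ (N : ℕ) (a : R), iK (t ^ N) * x = iK a := by
  have h1 : t ∈ (dn x).radical := by
    by_contra hcon
    obtain ⟨z, hz, hzt⟩ := exists_point hcon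
    obtain ⟨s, hs, hqs⟩ := rg_iff_dn.1 (h z hzt)
    exact hqs (hz s hs)
  obtain ⟨N, hN⟩ := h1
  exact ⟨N, hN⟩

theorem pow_mono {t : R} {x : FractionRing R} {N M : ℕ} (hNM : N ≤ M)
    (h : ∃ a : R, iK (t ^ N) * x = iK a) : ∃ a : R, iK (t ^ M) * x = iK a := by
  obtain ⟨a, ha⟩ := h
  refine ⟨t ^ (M - N) * a, ?_⟩
  rw [iK_mul, ← ha, ← mul_assoc, ← iK_mul, ← pow_add, Nat.sub_add_cancel hNM]

/-- Homogeneous elements of an ideal generated by finitely many homogeneous elements. -/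
theorem hom_span [GradedAlgebra 𝒜] {α : Type} (T : Finset α) (f : α → R)
    (hf : ∀ i ∈ T, ∃ k, f i ∈ 𝒜 k) {x : R} {j : ℕ × (Fin r → ℤ)} (hx : x ∈ 𝒜 j)
    (h : x ∈ Ideal.span (f '' (T : Set α))) :
    ∃ b : α → R, x = ∑ i ∈ T, b i * f i ∧ ∀ i ∈ T, b i * f i ∈ 𝒜 j := by
  classical
  obtain ⟨c, hc⟩ := (Submodule.mem_span_image_finset_iff_exists_fun (R := R)).1 h
  obtain ⟨b, hb⟩ : ∃ b : α → R, ∑ i ∈ T, b i * f i = x := by
    refine ⟨fun i => if h : i ∈ T then c ⟨i, h⟩ else 0, ?_⟩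
    rw [← hc, ← Finset.sum_coe_sort T]
    refine Finset.sum_congr rfl fun i _ => ?_
    dsimp only
    rw [dif_pos i.2, smul_eq_mul]
  have h1 : ∀ i, ∃ b' : R, i ∈ T → ((decompose 𝒜 (b i * f i)) j : R) = b' * f i := by
    intro i
    by_cases hi : i ∈ T
    · obtain ⟨k, hk⟩ := hf i hi
      obtain ⟨e, he⟩ := dvd_component (𝒜 := 𝒜) hk (dvd_mul_left (f i) (b i)) j
      exact ⟨e, fun _ => by rw [he, mul_comm]⟩
    · exact ⟨0, fun h => absurd h hi⟩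
  choose b' hb' using h1
  refine ⟨b', ?_, ?_⟩
  · have h2 : ((decompose 𝒜 x) j : R) = x := decompose_of_mem_same 𝒜 hx
    rw [← h2, ← hb]
    rw [decompose_sum, DFinsupp.finsetSum_apply, AddSubmonoidClass.coe_finsetSum]
    exact Finset.sum_congr rfl fun i hi => hb' i hi
  · intro i hi
    rw [← hb' i hi]
    exact (decompose 𝒜 (b i * f i) j).2

variable {ι : Type} {θ : ι → Fin r → ℤ}

/-- A family of local functions, compatible on the intersections. -/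
structure Cv (𝒜 : ℕ × (Fin r → ℤ) → Submodule ℂ R) (θ : ι → Fin r → ℤ)
    (T : Finset (R × (ι → FractionRing R))) : Prop where
  hom : ∀ P ∈ T, ∃ d m, 0 < d ∧ P.1 ∈ 𝒜 (d, m)
  hk : ∀ P ∈ T, ∀ i, HK 𝒜 0 (θ i) (P.2 i)
  cmp : ∀ P ∈ T, ∀ P' ∈ T, ∀ q : R →ₐ[ℂ] ℂ, q P.1 ≠ 0 → q P'.1 ≠ 0 → ∀ i,
    Rg q (P.2 i - P'.2 i)

/-- The ideal of the complement of the cover. -/
def cvI (T : Finset (R × (ι → FractionRing R))) : Ideal R :=
  Ideal.span (Prod.fst '' (T : Set (R × (ι → FractionRing R))))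

theorem mem_cvI {T : Finset (R × (ι → FractionRing R))} {P : R × (ι → FractionRing R)}
    (h : P ∈ T) : P.1 ∈ cvI T := Ideal.subset_span ⟨P, h, rfl⟩

theorem cvI_zero {T : Finset (R × (ι → FractionRing R))} {q : R →ₐ[ℂ] ℂ} :
    (∀ x ∈ cvI T, q x = 0) ↔ ∀ P ∈ T, q P.1 = 0 := by
  constructor
  · intro h P hP
    exact h _ (mem_cvI hP)
  · intro h x hx
    have h1 : cvI T ≤ RingHom.ker q := by
      rw [cvI, Ideal.span_le]
      rintro _ ⟨P, hP, rfl⟩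
      exact h P hP
    exact h1 hx

/-- A point where an element of the radical does not vanish is covered. -/
theorem exists_of_rad {T : Finset (R × (ι → FractionRing R))} {s : R}
    (hs : s ∈ (cvI T).radical) {q : R →ₐ[ℂ] ℂ} (hq : q s ≠ 0) : ∃ P ∈ T, q P.1 ≠ 0 := by
  by_contra hcon
  push Not at hcon
  obtain ⟨n, hn⟩ := hs
  have h1 := cvI_zero.2 hcon _ hn
  rw [map_pow] at h1
  exact hq (eq_zero_of_pow_eq_zero h1)

/-- **Partition of unity.** On a principal affine open set inside the cover the local functions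
can be glued. -/
theorem Cv.glue [GradedAlgebra 𝒜] [Finite ι] (hft : Algebra.FiniteType ℂ R)
    {T : Finset (R × (ι → FractionRing R))} (hT : Cv 𝒜 θ T) {s : R} {j : ℕ × (Fin r → ℤ)}
    (hs : s ∈ 𝒜 j) (hrad : s ∈ (cvI T).radical) :
    ∃ e : ι → FractionRing R, (∀ i, HK 𝒜 0 (θ i) (e i)) ∧
      ∀ P ∈ T, ∀ q : R →ₐ[ℂ] ℂ, q s ≠ 0 → q P.1 ≠ 0 → ∀ i, Rg q (e i - P.2 i) := by
  classical
  have := Fintype.ofFinite ι
  by_cases hs0 : s = 0
  · refine ⟨0, fun i => HK.zero le_rfl, fun P _ q hq => ?_⟩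
    exact absurd (by rw [hs0, map_zero]) hq
  -- a uniform exponent
  have h1 : ∀ (P P' : R × (ι → FractionRing R)) (i : ι), ∃ N : ℕ, P ∈ T → P' ∈ T →
      ∃ a : R, iK ((P.1 * P'.1) ^ N) * (P.2 i - P'.2 i) = iK a := by
    intro P P' i
    by_cases hP : P ∈ T
    · by_cases hP' : P' ∈ T
      · obtain ⟨N, hN⟩ := pow_of_rg hft (t := P.1 * P'.1) (x := P.2 i - P'.2 i) (by
          intro q hq
          rw [map_mul] at hq
          exact hT.cmp P hP P' hP' q (left_ne_zero_of_mul hq) (right_ne_zero_of_mul hq) i)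
        exact ⟨N, fun _ _ => hN⟩
      · exact ⟨0, fun _ h => absurd h hP'⟩
    · exact ⟨0, fun h => absurd h hP⟩
  choose Nf hNf using h1
  set N : ℕ := ∑ P ∈ T, ∑ P' ∈ T, ∑ i, Nf P P' i with hNdef
  have hle : ∀ P ∈ T, ∀ P' ∈ T, ∀ i, Nf P P' i ≤ N := by
    intro P hP P' hP' i
    refine le_trans ?_ (Finset.single_le_sum (f := fun P => ∑ P' ∈ T, ∑ i, Nf P P' i)
      (fun _ _ => Nat.zero_le _) hP)
    refine le_trans ?_ (Finset.single_le_sum (f := fun P' => ∑ i, Nf P P' i)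
      (fun _ _ => Nat.zero_le _) hP')
    exact Finset.single_le_sum (f := fun i => Nf P P' i) (fun _ _ => Nat.zero_le _)
      (Finset.mem_univ i)
  have hN : ∀ P ∈ T, ∀ P' ∈ T, ∀ i, ∃ a : R,
      iK ((P.1 * P'.1) ^ N) * (P.2 i - P'.2 i) = iK a := fun P hP P' hP' i =>
    pow_mono (hle P hP P' hP' i) (hNf P P' i hP hP')
  -- `s ^ M` in terms of the `N`-th powers
  have h2 : s ∈ (Ideal.span ((fun P : R × (ι → FractionRing R) => P.1 ^ N) ''
      (T : Set (R × (ι → FractionRing R))))).radical := by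
    have h3 : cvI T ≤ (Ideal.span ((fun P : R × (ι → FractionRing R) => P.1 ^ N) ''
        (T : Set (R × (ι → FractionRing R))))).radical := by
      rw [cvI, Ideal.span_le]
      rintro _ ⟨P, hP, rfl⟩
      exact ⟨N, Ideal.subset_span ⟨P, hP, rfl⟩⟩
    have h4 := Ideal.radical_mono h3 hrad
    rwa [Ideal.radical_idem] at h4
  obtain ⟨M, hM⟩ := h2
  obtain ⟨b, hb, hbm⟩ := hom_span T (fun P => P.1 ^ N) (fun P hP => by
    obtain ⟨d, m, -, h⟩ := hT.hom P hP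
    exact ⟨N • (d, m), SetLike.pow_mem_graded N h⟩) (SetLike.pow_mem_graded M hs) hM
  have hsM : iK (s ^ M) ≠ 0 := iK_ne_zero (pow_ne_zero M hs0)
  have hsMh : HK 𝒜 ((M • j).1 : ℕ) (M • j).2 (iK (s ^ M)) := HK.ofR (SetLike.pow_mem_graded M hs)
  refine ⟨fun i => ∑ P ∈ T, iK (b P * P.1 ^ N) * (iK (s ^ M))⁻¹ * P.2 i, fun i => ?_, ?_⟩
  · refine HK.sum T le_rfl fun P hP => ?_
    have h5 : HK 𝒜 ((M • j).1 : ℕ) (M • j).2 (iK (b P * P.1 ^ N)) := HK.ofR (hbm P hP)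
    exact ((h5.mul (hsMh.inv hsM)).mul (hT.hk P hP i)).cast (by ring) (by abel)
  · intro P0 hP0 q hq hq0 i
    have h5 : ∑ P ∈ T, iK (b P * P.1 ^ N) = iK (s ^ M) := by
      rw [hb, iK_sum]
    have h6 : (∑ P ∈ T, iK (b P * P.1 ^ N) * (iK (s ^ M))⁻¹ * P.2 i) - P0.2 i =
        ∑ P ∈ T, iK (b P * P.1 ^ N) * (iK (s ^ M))⁻¹ * (P.2 i - P0.2 i) := by
      have h7 : P0.2 i = ∑ P ∈ T, iK (b P * P.1 ^ N) * (iK (s ^ M))⁻¹ * P0.2 i := by
        rw [← Finset.sum_mul, ← Finset.sum_mul, h5, mul_inv_cancel₀ hsM, one_mul]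
      conv_lhs => rw [h7]
      rw [← Finset.sum_sub_distrib]
      exact Finset.sum_congr rfl fun P _ => by ring
    rw [h6]
    refine Rg.sum T fun P hP => ?_
    obtain ⟨a, ha⟩ := hN P hP P0 hP0 i
    have hqN : q (s ^ M * P0.1 ^ N) ≠ 0 := by
      rw [map_mul, map_pow, map_pow]
      exact mul_ne_zero (pow_ne_zero _ hq) (pow_ne_zero _ hq0)
    refine Rg.of_mul hqN ?_
    have h8 : iK (s ^ M * P0.1 ^ N) * (iK (b P * P.1 ^ N) * (iK (s ^ M))⁻¹ *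
        (P.2 i - P0.2 i)) = iK (b P * a) := by
      rw [iK_mul (b P) a, ← ha, mul_pow, iK_mul, iK_mul, iK_mul]
      field_simp
    rw [h8]
    exact Rg.iK _

/-- A homogeneous function which is regular at a fixed point is regular on a principal
neighbourhood. -/
theorem open_fun [GradedAlgebra 𝒜] (hX : IsTorusManifold 𝒜) (z : FP 𝒜) {d : ℤ}
    {m : Fin r → ℤ} {x : FractionRing R} (hx : HK 𝒜 d m x) (hr : Rg z.q x) :
    ∃ (k : ℕ) (s : R), 0 < k ∧ s ∈ 𝒜 (k, k • z.ν) ∧ z.q s ≠ 0 ∧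
      ∀ q : R →ₐ[ℂ] ℂ, q s ≠ 0 → Rg q x := by
  obtain ⟨k, k', s, a, hs, -, -, hqs, e1⟩ := HK.exists_den hX z.nv z.fix hx hr
  obtain ⟨f, hf, hzf⟩ := exists_deg_one_ne hX.gen z.nv z.fix
  refine ⟨k + 1, s * f, Nat.succ_pos k, ?_, ?_, fun q hq => ?_⟩
  · have h1 := SetLike.mul_mem_graded hs hf
    have h2 : ((k, k • z.ν) : ℕ × (Fin r → ℤ)) + (1, z.ν) = (k + 1, (k + 1) • z.ν) := by
      rw [succ_nsmul]
      rfl
    rwa [h2] at h1
  · rw [map_mul, hqs, one_mul]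
    exact hzf
  · rw [map_mul] at hq
    exact ⟨a, s, left_ne_zero_of_mul hq, e1⟩

/-- A homogeneous field which is regular at a fixed point is regular on a principal
neighbourhood. -/
theorem open_field [GradedAlgebra 𝒜] (hX : IsTorusManifold 𝒜) (z : FP 𝒜) {lam : Fin r → ℤ}
    {v : VF R} (hv : HV 𝒜 lam v) (hr : RgV z.q v) :
    ∃ (k : ℕ) (s : R), 0 < k ∧ s ∈ 𝒜 (k, k • z.ν) ∧ z.q s ≠ 0 ∧
      ∀ q : R →ₐ[ℂ] ℂ, q s ≠ 0 → RgV q v := by
  obtain ⟨N, γ, g, D, hg, hg0, hD, hDh⟩ := H900.exists_den hX hv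
  obtain ⟨s, hs, hs'⟩ := H900.exists_cond hX hr hD
  obtain ⟨i, hi⟩ := exists_comp_ne (𝒜 := 𝒜) hs
  have hc : (decompose 𝒜 s i : R) ∈ cond g D :=
    cond_homogeneous (𝒜 := 𝒜) hg D.toLinearMap
      (fun i h hh => ⟨_, hDh i.1 i.2 h hh⟩) (x := s) hs' i
  have hmem : (decompose 𝒜 s i : R) ∈ 𝒜 (i.1, i.2) := (decompose 𝒜 s i).2
  generalize (decompose 𝒜 s i : R) = s1 at hi hc hmem
  obtain ⟨f, hf, hzf⟩ := exists_deg_one_ne hX.gen z.nv z.fix
  have h2 := z.fix i.1 i.2 s1 hmem hi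
  refine ⟨i.1 + 1, s1 * f, Nat.succ_pos _, ?_, ?_, fun q hq h => ?_⟩
  · have h1 := SetLike.mul_mem_graded hmem hf
    have h3 : ((i.1, i.2) : ℕ × (Fin r → ℤ)) + (1, z.ν) = (i.1 + 1, (i.1 + 1) • z.ν) := by
      rw [succ_nsmul, h2]
      rfl
    rwa [h3] at h1
  · rw [map_mul]
    exact mul_ne_zero hi hzf
  · rw [map_mul] at hq
    obtain ⟨a, ha⟩ := hc h
    refine ⟨a, s1, left_ne_zero_of_mul hq, ?_⟩
    apply mul_left_cancel₀ (iK_ne_zero hg0)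
    rw [← iK_mul g a, ← ha, iK_mul s1, hD]
    ring

end Vale.Agent.P280.H749
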