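import Vale.Agent.P280.H749.Cov

/-! P280: local solutions of a Cousin problem for rational functions `x i` with
`v - ∑ x i • w i` regular; adding a fixed point to the cover. -/

open DirectSum Vale.Agent.P280.T Vale.Agent.P280.H127 Vale.Agent.P280.N

namespace Vale.Agent.P280.H749

variable {r : ℕ} {R : Type} [CommRing R] [IsDomain R] [Algebra ℂ R]
  {𝒜 : ℕ × (Fin r → ℤ) → Submodule ℂ R} {ι : Type} [Fintype ι]

/-- Compatible local solutions on a cover. -/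
structure Dt (𝒜 : ℕ × (Fin r → ℤ) → Submodule ℂ R) (c : (Fin r → ℤ) →+ ℤ)
    (θ : ι → Fin r → ℤ) (w : ι → VF R) (v : VF R) (g : FP 𝒜 → ι → FractionRing R)
    (T : Finset (R × (ι → FractionRing R))) : Prop extends Cv 𝒜 θ T where
  fld : ∀ P ∈ T, ∀ q : R →ₐ[ℂ] ℂ, q P.1 ≠ 0 → RgV q (v - ∑ i, P.2 i • w i)
  wal : ∀ P ∈ T, ∀ (y : FP 𝒜) (b : Fin r → ℤ), Wl c y b → y.q P.1 ≠ 0 → ∀ i,
    Rg y.q (g y i - P.2 i)
  slp : ∀ P ∈ T, ∀ z : FP 𝒜, (∀ P' ∈ T, z.q P'.1 = 0) →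
    ∃ (d : ℕ) (m : Fin r → ℤ), P.1 ∈ 𝒜 (d, m) ∧ c m ≤ d * c z.ν

/-- The semi-invariants of the character of `z` which do not vanish at `z`. -/
def sm [GradedAlgebra 𝒜] (z : FP 𝒜) : Submonoid R where
  carrier := {s | z.q s ≠ 0 ∧ ∃ k : ℕ, s ∈ 𝒜 (k, k • z.ν)}
  one_mem' := ⟨by rw [map_one]; exact one_ne_zero, 0, by
    rw [zero_smul]
    exact SetLike.GradedOne.one_mem⟩
  mul_mem' := by
    rintro s t ⟨h1, k, hk⟩ ⟨h2, l, hl⟩
    refine ⟨by rw [map_mul]; exact mul_ne_zero h1 h2, k + l, ?_⟩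
    have h3 := SetLike.mul_mem_graded hk hl
    have h4 : ((k, k • z.ν) : ℕ × (Fin r → ℤ)) + (l, l • z.ν) = (k + l, (k + l) • z.ν) := by
      rw [add_smul]
      rfl
    rwa [h4] at h3

variable {c : (Fin r → ℤ) →+ ℤ} {θ : ι → Fin r → ℤ} {w : ι → VF R} {v : VF R}
  {g : FP 𝒜 → ι → FractionRing R} {T : Finset (R × (ι → FractionRing R))}

theorem sum_sub_smul (x x' : ι → FractionRing R) :
    (v - ∑ i, x i • w i) = (v - ∑ i, x' i • w i) - ∑ i, (x i - x' i) • w i := by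
  rw [sub_sub, ← Finset.sum_add_distrib]
  congr 1
  exact Finset.sum_congr rfl fun i _ => by rw [← add_smul, add_sub_cancel]

theorem rgV_congr {q : R →ₐ[ℂ] ℂ} (hw : ∀ i, RgV q (w i)) {x x' : ι → FractionRing R}
    (h : RgV q (v - ∑ i, x' i • w i)) (hx : ∀ i, Rg q (x i - x' i)) :
    RgV q (v - ∑ i, x i • w i) := by
  rw [sum_sub_smul x x']
  exact h.sub (RgV.sum _ fun i _ => (hw i).smul (hx i))

/-- **Adding a fixed point to the cover.** -/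
theorem Dt.extend [GradedAlgebra 𝒜] (hX : IsTorusManifold 𝒜) (hT : Dt 𝒜 c θ w v g T)
    (z : FP 𝒜) (hz : ∀ P ∈ T, z.q P.1 = 0)
    (hlow : ∀ z' : FP 𝒜, (∀ P ∈ T, z'.q P.1 = 0) → c z.ν ≤ c z'.ν)
    (hsep : ∃ (k : ℕ) (s : R), 0 < k ∧ s ∈ 𝒜 (k, k • z.ν) ∧ z.q s ≠ 0 ∧
      ∀ y : FP 𝒜, y.ν = z.ν → y.q s ≠ 0 → SamePoint 𝒜 z.q y.q)
    {x : ι → FractionRing R} (hx : ∀ i, HK 𝒜 0 (θ i) (x i))
    (h1 : ∀ P ∈ T, ∀ i, ∃ N : ℕ, Rg z.q ((iK P.1) ^ N * (x i - P.2 i)))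
    {χ : Fin r → ℤ} (hv : HV 𝒜 χ (v - ∑ i, x i • w i)) (h2 : RgV z.q (v - ∑ i, x i • w i))
    (h3 : ∀ (y : FP 𝒜) (b : Fin r → ℤ), Wl c y b → SamePoint 𝒜 z.q y.q → ∀ i,
      Rg y.q (g y i - x i)) :
    ∃ T' : Finset (R × (ι → FractionRing R)), Dt 𝒜 c θ w v g T' ∧ T ⊆ T' ∧ cvI T < cvI T' := by
  classical
  obtain ⟨k1, s1, hk1, hs1, hzs1, hs1'⟩ := hsep
  obtain ⟨k2, s2, hk2, hs2, hzs2, hs2'⟩ := open_field hX z hv h2
  have h4 : ∀ (P : R × (ι → FractionRing R)) (i : ι), ∃ s : R, s ∈ sm z ∧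
      (P ∈ T → ∀ q : R →ₐ[ℂ] ℂ, q s ≠ 0 → q P.1 ≠ 0 → Rg q (x i - P.2 i)) := by
    intro P i
    by_cases hP : P ∈ T
    · obtain ⟨N, hN⟩ := h1 P hP i
      obtain ⟨d, m, -, hd⟩ := hT.hom P hP
      have h5 : HK 𝒜 ((N • (d, m)).1 : ℕ) (N • (d, m)).2 ((iK P.1) ^ N) := by
        rw [← iK_pow]
        exact HK.ofR (SetLike.pow_mem_graded N hd)
      have h6 := h5.mul ((hx i).sub (hT.hk P hP i))
      obtain ⟨k, s, hk, hs, hzs, hs'⟩ := open_fun hX z h6 hN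
      refine ⟨s, ⟨hzs, k, hs⟩, fun _ q hq hqP => ?_⟩
      refine Rg.of_mul (s := P.1 ^ N) (by rw [map_pow]; exact pow_ne_zero _ hqP) ?_
      rw [iK_pow]
      exact hs' q hq
    · exact ⟨1, one_mem _, fun h => absurd h hP⟩
  choose s hs hs' using h4
  have hprod : (∏ P ∈ T, ∏ i, s P i) ∈ sm z :=
    Submonoid.prod_mem _ fun P _ => Submonoid.prod_mem _ fun i _ => hs P i
  have hrest : s2 * ∏ P ∈ T, ∏ i, s P i ∈ sm z :=
    Submonoid.mul_mem _ ⟨hzs2, k2, hs2⟩ hprod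
  set t : R := s1 * (s2 * ∏ P ∈ T, ∏ i, s P i) with ht
  obtain ⟨hzt, -⟩ : t ∈ sm z := Submonoid.mul_mem _ ⟨hzs1, k1, hs1⟩ hrest
  obtain ⟨k, hk, htk⟩ : ∃ k : ℕ, 0 < k ∧ t ∈ 𝒜 (k, k • z.ν) := by
    obtain ⟨-, l, hl⟩ := hrest
    refine ⟨k1 + l, by omega, ?_⟩
    have h5 := SetLike.mul_mem_graded hs1 hl
    have h6 : ((k1, k1 • z.ν) : ℕ × (Fin r → ℤ)) + (l, l • z.ν) = (k1 + l, (k1 + l) • z.ν) := by
      rw [add_smul]
      rfl
    rwa [h6] at h5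
  have hqt : ∀ q : R →ₐ[ℂ] ℂ, q t ≠ 0 → q s1 ≠ 0 ∧ q s2 ≠ 0 ∧ ∀ P ∈ T, ∀ i, q (s P i) ≠ 0 := by
    intro q hq
    rw [ht, map_mul, map_mul] at hq
    have hq2 := right_ne_zero_of_mul hq
    refine ⟨left_ne_zero_of_mul hq, left_ne_zero_of_mul hq2, fun P hP i => ?_⟩
    have hq3 := right_ne_zero_of_mul hq2
    rw [map_prod] at hq3
    have hq4 := Finset.prod_ne_zero_iff.1 hq3 P hP
    rw [map_prod] at hq4
    exact Finset.prod_ne_zero_iff.1 hq4 i (Finset.mem_univ i)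
  have hnew : ∀ P ∈ T, ∀ q : R →ₐ[ℂ] ℂ, q t ≠ 0 → q P.1 ≠ 0 → ∀ i, Rg q (x i - P.2 i) :=
    fun P hP q hq hqP i => hs' P i hP q ((hqt q hq).2.2 P hP i) hqP
  refine ⟨insert (t, x) T, { hom := ?_, hk := ?_, cmp := ?_, fld := ?_, wal := ?_, slp := ?_ },
    Finset.subset_insert _ _, ?_⟩
  · intro P hP
    rcases Finset.mem_insert.1 hP with rfl | hP
    · exact ⟨k, _, hk, htk⟩
    · exact hT.hom P hP
  · intro P hP
    rcases Finset.mem_insert.1 hP with rfl | hP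
    · exact hx
    · exact hT.hk P hP
  · intro P hP P' hP' q hq hq' i
    rcases Finset.mem_insert.1 hP with rfl | hP
    · rcases Finset.mem_insert.1 hP' with rfl | hP'
      · rw [sub_self]
        exact Rg.zero
      · exact hnew P' hP' q hq hq' i
    · rcases Finset.mem_insert.1 hP' with rfl | hP'
      · have h5 := (hnew P hP q hq' hq i).neg
        rwa [neg_sub] at h5
      · exact hT.cmp P hP P' hP' q hq hq' i
  · intro P hP q hq
    rcases Finset.mem_insert.1 hP with rfl | hP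
    · exact hs2' q (hqt q hq).2.1
    · exact hT.fld P hP q hq
  · intro P hP y b hy hyP i
    rcases Finset.mem_insert.1 hP with rfl | hP
    · by_cases hcov : ∃ P' ∈ T, y.q P'.1 ≠ 0
      · obtain ⟨P', hP', hyP'⟩ := hcov
        have h5 := (hT.wal P' hP' y b hy hyP' i).sub (hnew P' hP' y.q hyP hyP' i)
        rwa [sub_sub_sub_cancel_right] at h5
      · refine h3 y b hy (hs1' y ?_ (hqt y.q hyP).1) i
        have h5 := y.fix k _ t htk hyP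
        have h6 : (k : ℤ) • y.ν = (k : ℤ) • z.ν := by
          rw [natCast_zsmul, natCast_zsmul, h5]
        have hk0 : (k : ℤ) ≠ 0 := by exact_mod_cast hk.ne'
        exact smul_right_injective _ hk0 h6
    · exact hT.wal P hP y b hy hyP i
  · intro P hP z' hz'
    have hz'T : ∀ P' ∈ T, z'.q P'.1 = 0 := fun P' hP' => hz' P' (Finset.mem_insert_of_mem hP')
    rcases Finset.mem_insert.1 hP with rfl | hP
    · refine ⟨k, _, htk, ?_⟩
      rw [map_nsmul, nsmul_eq_mul]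
      exact mul_le_mul_of_nonneg_left (hlow z' hz'T) (Nat.cast_nonneg k)
    · exact hT.slp P hP z' hz'T
  · refine lt_of_le_of_ne ?_ ?_
    · refine Ideal.span_mono (Set.image_mono ?_)
      intro P hP
      exact Finset.mem_insert_of_mem hP
    · intro heq
      have h5 : t ∈ cvI T := by
        rw [heq]
        exact mem_cvI (P := (t, x)) (Finset.mem_insert_self _ _)
      exact hzt (cvI_zero.2 hz t h5)

end Vale.Agent.P280.H749
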