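import Vale.Agent.P280.H749.Glob
import Vale.Agent.P280.H63X.A06
import Vale.Agent.P280.H63X.A01
import Vale.Agent.P280.H587.Main

/-! P280: rational functions which are regular at the sources and at the walls are constant. -/

open DirectSum Vale.Agent.P280.T Vale.Agent.P280.H127 Vale.Agent.P280.N

namespace Vale.Agent.P280.H749

variable {r : ℕ} {R : Type} [CommRing R] [IsDomain R] [Algebra ℂ R]
  {𝒜 : ℕ × (Fin r → ℤ) → Submodule ℂ R} [GradedAlgebra 𝒜]

/-- **(W4)**, functions: a homogeneous rational function of nonzero weight which is regular at the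
sources and at the walls is zero. -/
theorem fun_of_walls (hX : IsTorusManifold 𝒜) (c : (Fin r → ℤ) →+ ℤ)
    (hc : ∀ μ, Wt 𝒜 μ → c μ ≠ 0) (hex : ∃ μ, Wt 𝒜 μ) {m : Fin r → ℤ} (hm : m ≠ 0)
    {x : FractionRing R} (hx : HK 𝒜 0 m x) (hs : ∀ p : FP 𝒜, Pos c p → Rg p.q x)
    (hw : ∀ (y : FP 𝒜) (b : Fin r → ℤ), Wl c y b → Rg y.q x) : x = 0 := by
  obtain ⟨E, hE⟩ := H587.exists_euler 𝒜
  have hEv : HV 𝒜 0 (toVF E) := hv_toVF (by simpa using H587.isHField_euler hE 1)
  have hg : Glob (x • toVF E) := by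
    refine glob_of_walls hX c hc hex (hEv.smul hx) (fun p hp => ?_) (fun y b hy => ?_)
    · exact RgV.smul (hs p hp) (toVF_glob E).rgV
    · exact RgV.smul (hw y b hy) (toVF_glob E).rgV
  by_contra hx0
  have hstep : ∀ k : Fin r → ℤ, (∃ h ∈ 𝒜 (1, k), h ≠ 0) → ∃ h ∈ 𝒜 (1, k + m), h ≠ 0 := by
    rintro k ⟨h, hh, hne⟩
    obtain ⟨a, ha⟩ := hg h
    rw [Derivation.smul_apply, toVF_iK, hE 1 k h hh, Nat.cast_one, one_smul, smul_eq_mul] at ha
    have h1 : HK 𝒜 (0 + (1 : ℕ)) (m + k) (iK a) := by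
      rw [← ha]
      exact hx.mul (HK.ofR hh)
    refine ⟨a, (h1.cast (by simp) (add_comm m k)).mem (d := 1), ?_⟩
    rintro rfl
    rw [iK_zero] at ha
    rcases mul_eq_zero.1 ha with h2 | h2
    · exact hx0 h2
    · exact hne (iK_eq_zero.1 h2)
  obtain ⟨μ, y, hy⟩ := hex
  obtain ⟨f, hf, hyf⟩ := exists_deg_one_ne hX.gen y.nv y.fix
  have hall : ∀ j : ℕ, ∃ h ∈ 𝒜 (1, y.ν + j • m), h ≠ 0 := by
    intro j
    induction j with
    | zero =>
      rw [zero_smul, add_zero]
      exact ⟨f, hf, fun h => hyf (by rw [h, map_zero])⟩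
    | succ j ih =>
      have h1 := hstep _ ih
      rwa [add_assoc, ← succ_nsmul] at h1
  have hinj : Function.Injective fun j : ℕ => y.ν + j • m := by
    intro j j' h
    have h1 : j • m = j' • m := add_left_cancel h
    have h2 : ((j : ℤ) - j') • m = 0 := by
      rw [sub_smul, natCast_zsmul, natCast_zsmul, h1, sub_self]
    rcases smul_eq_zero.1 h2 with h3 | h3
    · have : (j : ℤ) = j' := by linarith
      exact_mod_cast this
    · exact absurd h3 hm
  exact Set.infinite_of_injective_forall_mem hinj (fun j => hall j) (finite_weights hX)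

end Vale.Agent.P280.H749
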