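import Vale.Agent.P280.H749.Wall

/-! P280: rational fields and functions which are regular at all points of `X` are global; the
criterion with sources and walls. -/

open DirectSum Vale.Agent.P280.T Vale.Agent.P280.H127 Vale.Agent.P280.N

namespace Vale.Agent.P280.H749

variable {r : ℕ} {R : Type} [CommRing R] [IsDomain R] [Algebra ℂ R]
  {𝒜 : ℕ × (Fin r → ℤ) → Submodule ℂ R} [GradedAlgebra 𝒜]

/-- The vertex has height at least two when `X` is not a point. -/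
theorem two_le_height (hX : IsTorusManifold 𝒜) {y : R →ₐ[ℂ] ℂ} {d0 : ℕ} {m0 : Fin r → ℤ}
    (hd0 : 0 < d0) {f : R} (hf : f ∈ 𝒜 (d0, m0)) (hyf : y f ≠ 0) {d1 : ℕ} {m1 : Fin r → ℤ}
    {h1 : R} (hh1 : h1 ∈ 𝒜 (d1, m1)) (hy1 : y h1 = 0) (hne1 : h1 ≠ 0) {e : R →ₐ[ℂ] ℂ}
    (he : IsVertex 𝒜 e) : ¬ (mx e).height ≤ 1 := by
  obtain ⟨ψ, hψ⟩ := exists_algHom 𝒜
    (fun i => (Polynomial.monomial i.1 : ℂ →ₗ[ℂ] Polynomial ℂ).comp y.toLinearMap)
    (by simp)
    (by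
      rintro ⟨d, m⟩ ⟨d', m'⟩ a _ b _
      simp [Polynomial.monomial_mul_monomial])
  have hev : ∀ x, (ψ x).eval 0 = e x := by
    have h1 : (Polynomial.aeval (0 : ℂ)).comp ψ = e := by
      apply algHom_ext_graded 𝒜
      rintro ⟨d, m⟩ a ha
      rw [AlgHom.comp_apply, hψ (d, m) a ha]
      by_cases hd : d = 0
      · subst hd
        obtain ⟨c, rfl⟩ := hX.zero m a ha
        simp
      · rw [he d m (Nat.pos_of_ne_zero hd) a ha]
        simp [Polynomial.aeval_monomial, zero_pow hd]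
    intro x
    rw [← h1, AlgHom.comp_apply, Polynomial.aeval_def, Polynomial.eval₂_eq_eval_map]
    simp
  let P : Ideal R := RingHom.ker ψ
  have hP : P.IsPrime := RingHom.ker_isPrime ψ
  have hPe : P ≤ mx e := by
    intro x hx
    rw [mem_mx, ← hev x, (RingHom.mem_ker).1 hx, Polynomial.eval_zero]
  have h1P : h1 ∈ P := by
    rw [RingHom.mem_ker, hψ (d1, m1) h1 hh1]
    simp [hy1]
  have hfP : f ∉ P := by
    rw [RingHom.mem_ker, hψ (d0, m0) f hf]
    simp [hyf]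
  have hfe : f ∈ mx e := mem_mx.2 (he d0 m0 hd0 f hf)
  have hlt : P < mx e := lt_of_le_of_ne hPe (fun h => hfP (h ▸ hfe))
  have hb : (⊥ : Ideal R).IsPrime := Ideal.isPrime_bot
  have hbot : (⊥ : Ideal R) < P := by
    rw [bot_lt_iff_ne_bot]
    intro h
    rw [h] at h1P
    exact hne1 ((Submodule.mem_bot R).1 h1P)
  intro hle
  have h2 := Ideal.height_add_one_le_of_lt_of_isPrime hbot
  have h3 := Ideal.height_add_one_le_of_lt_of_isPrime hlt
  have h4 : (1 : ℕ∞) ≤ P.height := le_trans (by simp) h2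
  have h5 : (1 : ℕ∞) + 1 ≤ 1 := (add_le_add_left h4 1).trans (h3.trans hle)
  exact absurd h5 (by decide)

/-- The vertex has height at least two when there is a nonzero tangent weight. -/
theorem two_le_height_of_pi (hX : IsTorusManifold 𝒜) {y : FP 𝒜} {χ : Fin r → ℤ} (hχ : y.Pi χ)
    (h0 : χ ≠ 0) {e : R →ₐ[ℂ] ℂ} (he : IsVertex 𝒜 e) : ¬ (mx e).height ≤ 1 := by
  obtain ⟨f, hf, hyf⟩ := exists_deg_one_ne hX.gen y.nv y.fix
  obtain ⟨v, hv, hw, hne⟩ := hχ
  obtain ⟨d, m, h, hh, hvh⟩ := hne 0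
  rw [zero_mul, zero_mul] at hvh
  refine two_le_height hX one_pos hf hyf hh ?_ (fun h1 => hvh (by rw [h1, map_zero])) he
  by_contra h2
  have h3 := y.fix d m h hh h2
  have h4 := hw d m h hh hvh
  rw [h3] at h4
  exact h0 (left_eq_add.1 h4)

/-- A homogeneous rational field which is regular at all points of `X` is global. -/
theorem glob_of_reg (hX : IsTorusManifold 𝒜) {y : FP 𝒜} {χ : Fin r → ℤ} (hχ : y.Pi χ)
    (h0 : χ ≠ 0) {lam : Fin r → ℤ} {v : VF R} (hv : HV 𝒜 lam v)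
    (hreg : ∀ z : R →ₐ[ℂ] ℂ, ¬ IsVertex 𝒜 z → RgV z v) : Glob v := by
  have := hX.finiteType
  have := hX.normal
  have : IsNoetherianRing R := Algebra.FiniteType.isNoetherianRing ℂ R
  obtain ⟨N, γ, g, D, hg, hg0, hD, hDh⟩ := H900.exists_den hX hv
  have hv' : ∀ z : R →ₐ[ℂ] ℂ, (∀ x ∈ cond g D, z x = 0) → IsVertex 𝒜 z := by
    intro z hz
    by_contra hcon
    obtain ⟨s, hs, hs'⟩ := H900.exists_cond hX (hreg z hcon) hD
    exact hs (hz s hs')
  have h1 : (1 : R) ∈ cond g D := by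
    by_contra hcon
    have hle : cond g D ≠ ⊤ := fun h => hcon (h ▸ Submodule.mem_top)
    obtain ⟨P, hP, hPle⟩ := Ideal.exists_le_maximal _ hle
    obtain ⟨e, rfl⟩ := exists_hom P
    have hev : IsVertex 𝒜 e := hv' e (fun x hx => mem_mx.1 (hPle hx))
    obtain ⟨Q, hQ, hQm⟩ := Ideal.exists_minimalPrimes_le hPle
    have hQp : Q.IsPrime := hQ.isPrime
    have hQe : Q = mx e := by
      by_contra hne'
      obtain ⟨z, hz, hze⟩ := exists_hom_ne hQp hne' hQm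
      apply hze
      have hzv : IsVertex 𝒜 z := hv' z (fun x hx => mem_mx.1 (hz (hQ.1.2 hx)))
      apply algHom_ext_graded 𝒜
      rintro ⟨d, m⟩ x hx
      by_cases hd : d = 0
      · subst hd
        obtain ⟨c, rfl⟩ := hX.zero m x hx
        rw [AlgHom.commutes, AlgHom.commutes]
      · rw [hzv d m (Nat.pos_of_ne_zero hd) x hx, hev d m (Nat.pos_of_ne_zero hd) x hx]
    have hQh := cond_height hg0 D hQ
    rw [hQe] at hQh
    exact two_le_height_of_pi hX hχ h0 hev hQh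
  intro h
  obtain ⟨a, ha⟩ := h1 h
  refine ⟨a, ?_⟩
  have hKg : iK g ≠ 0 := iK_ne_zero hg0
  apply mul_left_cancel₀ hKg
  rw [← hD, ← iK_mul, ← ha, one_mul]

/-- **(W4)** A homogeneous rational field which is regular at the sources and at the walls of a
chamber is regular everywhere on `X`. -/
theorem reg_of_walls (hX : IsTorusManifold 𝒜) (c : (Fin r → ℤ) →+ ℤ)
    (hc : ∀ μ, Wt 𝒜 μ → c μ ≠ 0) {lam : Fin r → ℤ} {v : VF R} (hv : HV 𝒜 lam v)
    (hs : ∀ p : FP 𝒜, Pos c p → RgV p.q v)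
    (hw : ∀ (y : FP 𝒜) (b : Fin r → ℤ), Wl c y b → RgV y.q v)
    (z : R →ₐ[ℂ] ℂ) (hz : ¬ IsVertex 𝒜 z) : RgV z v := by
  by_contra hcon
  obtain ⟨y, hy, h⟩ := exists_wall hX c hc hv hz hcon
  rcases h with h | ⟨b, hb, -⟩
  · exact hy (hs y h)
  · exact hy (hw y b hb)

/-- **(W4)** Such a field is global, when `X` is not a point. -/
theorem glob_of_walls (hX : IsTorusManifold 𝒜) (c : (Fin r → ℤ) →+ ℤ)
    (hc : ∀ μ, Wt 𝒜 μ → c μ ≠ 0) (hex : ∃ μ, Wt 𝒜 μ) {lam : Fin r → ℤ} {v : VF R}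
    (hv : HV 𝒜 lam v) (hs : ∀ p : FP 𝒜, Pos c p → RgV p.q v)
    (hw : ∀ (y : FP 𝒜) (b : Fin r → ℤ), Wl c y b → RgV y.q v) : Glob v := by
  obtain ⟨μ, y, hy⟩ := hex
  have h0 : μ ≠ 0 := by
    rintro rfl
    exact hc 0 ⟨y, hy⟩ (map_zero c)
  exact glob_of_reg hX hy h0 hv (reg_of_walls hX c hc hv hs hw)

end Vale.Agent.P280.H749
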