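import Vale.Agent.P280.H749.Dat
import Vale.Agent.P280.H690.LocHom
import Vale.Agent.P280.H226.Split

/-! P280: the local solution at a fixed point of index at least two. -/

open DirectSum Vale.Agent.P280.T Vale.Agent.P280.H127 Vale.Agent.P280.N

namespace Vale.Agent.P280.H749

open Vale.Agent.P280.H690

variable {r : ℕ} {R : Type} [CommRing R] [IsDomain R] [Algebra ℂ R]
  {𝒜 : ℕ × (Fin r → ℤ) → Submodule ℂ R}

/-- A homogeneous field which is regular where `t ≠ 0` has a power of `t` as a denominator. -/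
theorem pow_of_rgV [GradedAlgebra 𝒜] (hX : IsTorusManifold 𝒜) {lam : Fin r → ℤ} {v : VF R}
    (hv : HV 𝒜 lam v) {t : R} (h : ∀ q : R →ₐ[ℂ] ℂ, q t ≠ 0 → RgV q v) :
    ∃ N : ℕ, ∀ x : R, ∃ a : R, iK t ^ N * v (iK x) = iK a := by
  have := hX.finiteType
  obtain ⟨N, γ, g, D, hg, hg0, hD, hDh⟩ := H900.exists_den hX hv
  have h1 : t ∈ (cond g D).radical := by
    by_contra hcon
    obtain ⟨z, hz, hzt⟩ := exists_point hcon
    obtain ⟨s, hs, hs'⟩ := H900.exists_cond hX (h z hzt) hD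
    exact hs (hz s hs')
  obtain ⟨M, hM⟩ := h1
  refine ⟨M, fun x => ?_⟩
  obtain ⟨a, ha⟩ := hM x
  refine ⟨a, ?_⟩
  apply mul_left_cancel₀ (iK_ne_zero hg0)
  rw [← iK_mul g a, ← ha, iK_mul (t ^ M), iK_pow, hD]
  ring

theorem sum_vf_apply {ι : Type} [Fintype ι] (f : ι → FractionRing R) (w : ι → VF R)
    (x : FractionRing R) : (∑ i, f i • w i) x = ∑ i, f i * w i x := by
  rw [← Derivation.coeFnAddMonoidHom_apply, map_sum, Finset.sum_apply]
  rfl

theorem rg_pow_mono {q : R →ₐ[ℂ] ℂ} {a : R} {x : FractionRing R} {N M : ℕ} (hNM : N ≤ M)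
    (h : Rg q (iK a ^ N * x)) : Rg q (iK a ^ M * x) := by
  have h1 : iK a ^ M * x = iK (a ^ (M - N)) * (iK a ^ N * x) := by
    rw [iK_pow, ← mul_assoc, ← pow_add, Nat.sub_add_cancel hNM]
  rw [h1]
  exact (Rg.iK _).mul h

/-- Regularity is closed under change of the regular term. -/
theorem rg_of_sub {q : R →ₐ[ℂ] ℂ} {x y : FractionRing R} (h : Rg q (x - y)) (hy : Rg q y) :
    Rg q x := by
  have h1 := h.add hy
  rwa [sub_add_cancel] at h1

variable {ι : Type} [Fintype ι] {c : (Fin r → ℤ) →+ ℤ} {θ : ι → Fin r → ℤ}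
  {w : ι → VF R} {v : VF R} {g : FP 𝒜 → ι → FractionRing R}
  {T : Finset (R × (ι → FractionRing R))}

omit [Fintype ι] in
/-- A local solution glued on `s ≠ 0`, near a point of `T`. -/
theorem glue_pow (hft : Algebra.FiniteType ℂ R) {s : R} {e : ι → FractionRing R}
    (he : ∀ P ∈ T, ∀ q : R →ₐ[ℂ] ℂ, q s ≠ 0 → q P.1 ≠ 0 → ∀ i, Rg q (e i - P.2 i))
    {P : R × (ι → FractionRing R)} (hP : P ∈ T) (i : ι) :
    ∃ (N : ℕ) (a : R), iK s ^ N * (iK P.1 ^ N * (e i - P.2 i)) = iK a := by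
  obtain ⟨N, a, ha⟩ := pow_of_rg hft (t := s * P.1) (x := e i - P.2 i) (fun q hq => by
    rw [map_mul] at hq
    exact he P hP q (left_ne_zero_of_mul hq) (right_ne_zero_of_mul hq) i)
  refine ⟨N, a, ?_⟩
  rw [← ha, iK_pow, iK_mul]
  ring

omit [Fintype ι] in
/-- Two glued solutions. -/
theorem glue_sub (hft : Algebra.FiniteType ℂ R) {s s' : R} {e e' : ι → FractionRing R}
    (hs : s ∈ (cvI T).radical)
    (he : ∀ P ∈ T, ∀ q : R →ₐ[ℂ] ℂ, q s ≠ 0 → q P.1 ≠ 0 → ∀ i, Rg q (e i - P.2 i))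
    (he' : ∀ P ∈ T, ∀ q : R →ₐ[ℂ] ℂ, q s' ≠ 0 → q P.1 ≠ 0 → ∀ i, Rg q (e' i - P.2 i))
    (i : ι) : ∃ (N : ℕ), ∀ q : R →ₐ[ℂ] ℂ, Rg q ((iK s * iK s') ^ N * (e i - e' i)) := by
  obtain ⟨N, a, ha⟩ := pow_of_rg hft (t := s * s') (x := e i - e' i) (fun q hq => by
    rw [map_mul] at hq
    obtain ⟨P, hP, hqP⟩ := exists_of_rad hs (left_ne_zero_of_mul hq)
    have h1 := (he P hP q (left_ne_zero_of_mul hq) hqP i).sub
      (he' P hP q (right_ne_zero_of_mul hq) hqP i)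
    rwa [sub_sub_sub_cancel_right] at h1)
  refine ⟨N, fun q => ?_⟩
  rw [← iK_mul, ← iK_pow, ha]
  exact Rg.iK a

/-- The glued field is regular where `s ≠ 0`. -/
theorem Dt.glue_fld (hT : Dt 𝒜 c θ w v g T) (hw : ∀ i, Glob (w i)) {s : R}
    {e : ι → FractionRing R} (hs : s ∈ (cvI T).radical)
    (he : ∀ P ∈ T, ∀ q : R →ₐ[ℂ] ℂ, q s ≠ 0 → q P.1 ≠ 0 → ∀ i, Rg q (e i - P.2 i))
    (q : R →ₐ[ℂ] ℂ) (hq : q s ≠ 0) : RgV q (v - ∑ i, e i • w i) := by
  obtain ⟨P, hP, hqP⟩ := exists_of_rad hs hq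
  exact rgV_congr (fun i => (hw i).rgV) (hT.fld P hP q hqP) (he P hP q hq hqP)

/-- Field form of multiplication by powers. -/
theorem rg_fld_pow {q : R →ₐ[ℂ] ℂ} {s : R} (hw : ∀ i, Glob (w i)) {e x : ι → FractionRing R}
    {M : ℕ} (h : ∀ y : R, ∃ a : R, iK s ^ M * (v - ∑ i, e i • w i) (iK y) = iK a)
    (hx : ∀ i, Rg q (iK s ^ M * (x i - e i))) (y : R) :
    Rg q (iK s ^ M * (v - ∑ i, x i • w i) (iK y)) := by
  have h1 : iK s ^ M * (v - ∑ i, x i • w i) (iK y) = iK s ^ M * (v - ∑ i, e i • w i) (iK y) -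
      ∑ i, (iK s ^ M * (x i - e i)) * w i (iK y) := by
    rw [sum_sub_smul x e, Derivation.sub_apply, mul_sub]
    congr 1
    rw [sum_vf_apply, Finset.mul_sum]
    refine Finset.sum_congr rfl fun i _ => ?_
    ring
  rw [h1]
  obtain ⟨a, ha⟩ := h y
  rw [ha]
  refine (Rg.iK a).sub (Rg.sum _ fun i _ => (hx i).mul ?_)
  obtain ⟨b, hb⟩ := hw i y
  rw [hb]
  exact Rg.iK b

variable [GradedAlgebra 𝒜]

/-- **The step with two negative parameters.** -/
theorem Dt.two_step (hX : IsTorusManifold 𝒜) (hT : Dt 𝒜 c θ w v g T) (hw : ∀ i, Glob (w i))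
    {χ : Fin r → ℤ} (hwv : ∀ i, HV 𝒜 (χ + θ i) (w i)) (hv : HV 𝒜 χ v)
    (z : FP 𝒜) {n : ℕ} {u : Fin n → R} {wt : Fin n → Fin r → ℤ}
    (G : Gens (coarse 𝒜 (rl (AddMonoidHom.id (Fin r → ℤ)) z.ν)) z.q u wt)
    (hn : (n : ℕ∞) = (mx z.q).height) {i j : Fin n} (hij : i ≠ j)
    (hsi : u i ∈ (cvI T).radical) (hsj : u j ∈ (cvI T).radical) {e e' x : ι → FractionRing R}
    (hek : ∀ l, HK 𝒜 0 (θ l) (e l)) (hek' : ∀ l, HK 𝒜 0 (θ l) (e' l))
    (he : ∀ P ∈ T, ∀ q : R →ₐ[ℂ] ℂ, q (u i) ≠ 0 → q P.1 ≠ 0 → ∀ l, Rg q (e l - P.2 l))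
    (he' : ∀ P ∈ T, ∀ q : R →ₐ[ℂ] ℂ, q (u j) ≠ 0 → q P.1 ≠ 0 → ∀ l, Rg q (e' l - P.2 l))
    {M : ℕ} (hx : ∀ l, Rg z.q (iK (u i) ^ M * (x l - e l)))
    (hx' : ∀ l, Rg z.q (iK (u j) ^ M * (x l - e' l))) :
    (∀ P ∈ T, ∀ l, ∃ N : ℕ, Rg z.q (iK P.1 ^ N * (x l - P.2 l))) ∧
      RgV z.q (v - ∑ l, x l • w l) := by
  have hft := hX.finiteType
  have hfv : ∀ f : ι → FractionRing R, (∀ l, HK 𝒜 0 (θ l) (f l)) →
      HV 𝒜 χ (v - ∑ l, f l • w l) := by
    intro f hf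
    refine hv.sub (HV.sum _ fun l _ => ?_)
    exact (HV.smul (hf l) (hwv l)).cast (by abel)
  constructor
  · intro P hP l
    obtain ⟨N, a, ha⟩ := glue_pow hft he hP l
    obtain ⟨N', a', ha'⟩ := glue_pow hft he' hP l
    refine ⟨N + N', two_par hX z G hn hij (N := M + N + N') ?_ ?_⟩
    · have h1 : iK (u i) ^ (M + N + N') * (iK P.1 ^ (N + N') * (x l - P.2 l)) =
          iK (u i ^ (N + N')) * iK (P.1 ^ (N + N')) * (iK (u i) ^ M * (x l - e l)) +
          iK (u i ^ (M + N')) * iK (P.1 ^ N') *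
            (iK (u i) ^ N * (iK P.1 ^ N * (e l - P.2 l))) := by
        rw [iK_pow, iK_pow, iK_pow, iK_pow]
        ring
      rw [h1, ha]
      exact (((Rg.iK _).mul (Rg.iK _)).mul (hx l)).add (((Rg.iK _).mul (Rg.iK _)).mul (Rg.iK a))
    · have h1 : iK (u j) ^ (M + N + N') * (iK P.1 ^ (N + N') * (x l - P.2 l)) =
          iK (u j ^ (N + N')) * iK (P.1 ^ (N + N')) * (iK (u j) ^ M * (x l - e' l)) +
          iK (u j ^ (M + N)) * iK (P.1 ^ N) *
            (iK (u j) ^ N' * (iK P.1 ^ N' * (e' l - P.2 l))) := by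
        rw [iK_pow, iK_pow, iK_pow, iK_pow]
        ring
      rw [h1, ha']
      exact (((Rg.iK _).mul (Rg.iK _)).mul (hx' l)).add
        (((Rg.iK _).mul (Rg.iK _)).mul (Rg.iK a'))
  · obtain ⟨N, hN⟩ := pow_of_rgV hX (hfv e hek) (hT.glue_fld hw hsi he)
    obtain ⟨N', hN'⟩ := pow_of_rgV hX (hfv e' hek') (hT.glue_fld hw hsj he')
    have hup : ∀ {s : R} {y : FractionRing R} {A B : ℕ}, A ≤ B → (∃ a : R, iK s ^ A * y = iK a) →
        ∃ a : R, iK s ^ B * y = iK a := by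
      rintro s y A B hAB ⟨a, ha⟩
      refine ⟨s ^ (B - A) * a, ?_⟩
      rw [iK_mul, ← ha, iK_pow, ← mul_assoc, ← pow_add, Nat.sub_add_cancel hAB]
    intro y
    refine two_par hX z G hn hij (N := M + N + N') ?_ ?_
    · exact rg_fld_pow hw (fun y => hup (by omega) (hN y))
        (fun l => rg_pow_mono (by omega) (hx l)) y
    · exact rg_fld_pow hw (fun y => hup (by omega) (hN' y))
        (fun l => rg_pow_mono (by omega) (hx' l)) y

/-- **The local solution at a fixed point with at least two negative parameters.** -/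
theorem Dt.exists_sol (hX : IsTorusManifold 𝒜) {χ : Fin r → ℤ} {ω : ι → Fin r → ℤ}
    (hinj : Function.Injective ω) {E : ι → Derivation ℂ R R}
    (hE : ∀ i, H93.IsHField 𝒜 (ω i) (E i)) (hv : HV 𝒜 χ v)
    (hT : Dt 𝒜 c (fun i => ω i - χ) (fun i => toVF (E i)) v g T)
    (z : FP 𝒜) {n : ℕ} {u : Fin n → R} {wt : Fin n → Fin r → ℤ}
    (G : Gens (coarse 𝒜 (rl (AddMonoidHom.id (Fin r → ℤ)) z.ν)) z.q u wt)
    (hn : (n : ℕ∞) = (mx z.q).height)
    (hhom : ∀ k, wt k ≠ 0 → ∃ d, 0 < d ∧ u k ∈ 𝒜 (d, d • z.ν + wt k))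
    (hrad : ∀ k, c (wt k) < 0 → u k ∈ (cvI T).radical) {i j : Fin n} (hij : i ≠ j)
    (hi : c (wt i) < 0) (hj : c (wt j) < 0)
    (hC3 : (∀ k, c (wt k) < 0 → k = i ∨ k = j) → ∀ l, (∃ h, z.q (E l h) ≠ 0) ∨
      ∀ (k k' : ℕ) (m : Fin n → ℕ), 1 ≤ k → 1 ≤ k' → m i = 0 → m j = 0 →
        ω l - χ + k • wt i + k' • wt j ≠ ∑ a, m a • wt a) :
    ∃ x : ι → FractionRing R, (∀ l, HK 𝒜 0 (ω l - χ) (x l)) ∧
      (∀ P ∈ T, ∀ l, ∃ N : ℕ, Rg z.q (iK P.1 ^ N * (x l - P.2 l))) ∧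
      RgV z.q (v - ∑ l, x l • toVF (E l)) := by
  classical
  have hft := hX.finiteType
  have hne : ∀ k, c (wt k) < 0 → wt k ≠ 0 := by
    intro k hk h0
    rw [h0, map_zero] at hk
    exact lt_irrefl _ hk
  have hglob : ∀ l, Glob (toVF (E l)) := fun l => toVF_glob _
  have hwv : ∀ l, HV 𝒜 (χ + (ω l - χ)) (toVF (E l)) := fun l =>
    (hv_toVF (hE l)).cast (by abel)
  obtain ⟨di, -, hui⟩ := hhom i (hne i hi)
  obtain ⟨dj, -, huj⟩ := hhom j (hne j hj)
  obtain ⟨e, hek, he⟩ := hT.toCv.glue hft hui (hrad i hi)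
  obtain ⟨e', hek', he'⟩ := hT.toCv.glue hft huj (hrad j hj)
  choose Nd hNd using glue_sub hft (hrad i hi) he he'
  -- it is enough to solve one equation at a time
  suffices key : ∀ l, ∃ (x : FractionRing R) (M : ℕ), HK 𝒜 0 (ω l - χ) x ∧
      Rg z.q (iK (u i) ^ M * (x - e l)) ∧ Rg z.q (iK (u j) ^ M * (x - e' l)) by
    choose x M hxk hx hx' using key
    have hM : ∀ l, M l ≤ ∑ l, M l := fun l =>
      Finset.single_le_sum (f := M) (fun _ _ => Nat.zero_le _) (Finset.mem_univ l)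
    obtain ⟨h1, h2⟩ := hT.two_step hX hglob hwv hv z G hn hij (hrad i hi) (hrad j hj) hek hek' he
      he' (M := ∑ l, M l) (fun l => rg_pow_mono (hM l) (hx l))
      (fun l => rg_pow_mono (hM l) (hx' l))
    exact ⟨x, hxk, h1, h2⟩
  by_cases hthird : ∃ k, c (wt k) < 0 ∧ k ≠ i ∧ k ≠ j
  · obtain ⟨k, hk, hki, hkj⟩ := hthird
    obtain ⟨dk, -, huk⟩ := hhom k (hne k hk)
    obtain ⟨e'', -, he''⟩ := hT.toCv.glue hft huk (hrad k hk)
    choose N1 hN1 using glue_sub hft (hrad i hi) he he''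
    choose N2 hN2 using glue_sub hft (hrad j hj) he' he''
    intro l
    have hup : ∀ {a b : R} {y : FractionRing R} {A B : ℕ}, A ≤ B →
        Rg z.q ((iK a * iK b) ^ A * y) → Rg z.q ((iK a * iK b) ^ B * y) := by
      intro a b y A B hAB h
      rw [← iK_mul] at h ⊢
      exact rg_pow_mono hAB h
    exact ext hX z G hn hij hui huj (hek l) (hek' l) (N := Nd l + N1 l + N2 l)
      (hup (by omega) (hNd l z.q)) (Or.inl ⟨k, hki, hkj, e'' l, hup (by omega) (hN1 l z.q),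
        hup (by omega) (hN2 l z.q)⟩)
  · push Not at hthird
    have hC := hC3 (fun k hk => by
      by_contra hcon
      push Not at hcon
      exact hcon.2 (hthird k hk hcon.1))
    -- the equations for which the obstruction vanishes by weights
    have hnum : ∀ l, ∃ (x : FractionRing R) (M : ℕ), ¬ (∃ h, z.q (E l h) ≠ 0) →
        HK 𝒜 0 (ω l - χ) x ∧
        Rg z.q (iK (u i) ^ M * (x - e l)) ∧ Rg z.q (iK (u j) ^ M * (x - e' l)) := by
      intro l
      by_cases hl : ∃ h, z.q (E l h) ≠ 0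
      · exact ⟨0, 0, fun h => absurd hl h⟩
      · obtain ⟨x, M, h1, h2, h3⟩ := ext hX z G hn hij hui huj (hek l) (hek' l) (hNd l z.q)
          (Or.inr ((hC l).resolve_left hl))
        exact ⟨x, M, fun _ => ⟨h1, h2, h3⟩⟩
    choose x M hx using hnum
    -- the others
    set f : ι → FractionRing R := fun l => if ∃ h, z.q (E l h) ≠ 0 then e l else x l with hf
    set f' : ι → FractionRing R := fun l => if ∃ h, z.q (E l h) ≠ 0 then e' l else x l with hf'
    have hfv : ∀ f : ι → FractionRing R, (∀ l, HK 𝒜 0 (ω l - χ) (f l)) →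
        HV 𝒜 χ (v - ∑ l, f l • toVF (E l)) := by
      intro f hf
      refine hv.sub (HV.sum _ fun l _ => ?_)
      exact (HV.smul (hf l) (hwv l)).cast (by abel)
    obtain ⟨N, hN⟩ := pow_of_rgV hX (hfv e hek) (hT.glue_fld hglob (hrad i hi) he)
    obtain ⟨N', hN'⟩ := pow_of_rgV hX (hfv e' hek') (hT.glue_fld hglob (hrad j hj) he')
    have hM : ∀ l, M l ≤ ∑ l, M l := fun l =>
      Finset.single_le_sum (f := M) (fun _ _ => Nat.zero_le _) (Finset.mem_univ l)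
    have hup : ∀ {s : R} {y : FractionRing R} {A B : ℕ}, A ≤ B → (∃ a : R, iK s ^ A * y = iK a) →
        ∃ a : R, iK s ^ B * y = iK a := by
      rintro s y A B hAB ⟨a, ha⟩
      refine ⟨s ^ (B - A) * a, ?_⟩
      rw [iK_mul, ← ha, iK_pow, ← mul_assoc, ← pow_add, Nat.sub_add_cancel hAB]
    set A : ℕ := N + N' + ∑ l, M l with hA
    have hD1 : ∀ y : R, Rg z.q (iK (u i) ^ A * (v - ∑ l, f l • toVF (E l)) (iK y)) := by
      refine rg_fld_pow hglob (fun y => hup (by omega) (hN y)) fun l => ?_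
      by_cases hl : ∃ h, z.q (E l h) ≠ 0
      · rw [hf]
        simp only [if_pos hl, sub_self, mul_zero]
        exact Rg.zero
      · rw [hf]
        simp only [if_neg hl]
        exact rg_pow_mono (by have := hM l; omega) (hx l hl).2.1
    have hD2 : ∀ y : R, Rg z.q (iK (u j) ^ A * (v - ∑ l, f' l • toVF (E l)) (iK y)) := by
      refine rg_fld_pow hglob (fun y => hup (by omega) (hN' y)) fun l => ?_
      by_cases hl : ∃ h, z.q (E l h) ≠ 0
      · rw [hf']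
        simp only [if_pos hl, sub_self, mul_zero]
        exact Rg.zero
      · rw [hf']
        simp only [if_neg hl]
        exact rg_pow_mono (by have := hM l; omega) (hx l hl).2.2
    obtain ⟨b, b', hb, hb1, hb2⟩ := H226.split hX z hinj hE (a := fun l => f' l - f l)
      (D := v - ∑ l, f l • toVF (E l)) (D' := v - ∑ l, f' l • toVF (E l)) (by
        intro h
        rw [sum_sub_smul f f', Derivation.sub_apply, sub_sub_cancel_left, sum_vf_apply,
          ← Finset.sum_neg_distrib]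
        refine Finset.sum_congr rfl fun l _ => ?_
        rw [toVF_iK]
        ring) (by
        intro l hl
        have hl' : ¬ ∃ h, z.q (E l h) ≠ 0 := by
          push Not
          exact hl
        simp only [hf, hf', if_neg hl', sub_self]) hD1 hD2
    intro l
    by_cases hl : ∃ h, z.q (E l h) ≠ 0
    · have h1 := hb l
      simp only [hf, hf', if_pos hl] at h1
      refine ext_hom hX z G hn hij hui huj (hek l) (hek' l) (x0 := e l + b l) (N := A) ?_ ?_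
      · rw [add_sub_cancel_left]
        exact hb1 l
      · have h2 : e l + b l - e' l = b' l := by
          linear_combination -h1
        rw [h2]
        exact hb2 l
    · exact ⟨x l, M l, hx l hl⟩

end Vale.Agent.P280.H749
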